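import Vale.Agent.P354YO.Fn
import Vale.Agent.P354YI.Defs

/-!
The frame along the outgoing rays: the anchor, the input, and the exact statement FTWO.
-/

open scoped ContDiff
open Set Filter Topology

noncomputable section

namespace Vale.Agent.P354F2

open Vale.Agent.P354XG Vale.Agent.P354XD Vale.Agent.P354XR Vale.Agent.P354XI Vale.Agent.P354Z
open Vale.Agent.P354XE (Tw gin)
open Vale.Agent.P354XV (Lv)
open Vale.Agent.P354YO (sh IsTh)
open Vale.Agent.P354YK (out oth)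

/-- The radius of the anchor of the ray u. -/
def be (R u : ℝ) : ℝ := R + (-u - R) * Real.smoothTransition (4 * (-u - R))

/-- The point with the radius s of the ray through x, and the segment from the anchor to x. -/
def rp (M s : ℝ) (x : E6) : E6 := (uu M x - 4 * M ^ 2 / s, s, x.2.2)
def Seg (M R : ℝ) (x : E6) : Set E6 := (fun s => rp M s x) '' uIcc (be R (uu M x)) x.2.1

/-- The points whose segment lies in O. -/
def core (M R : ℝ) (O : Set E6) : Set E6 := {x | Seg M R x ⊆ O}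

/-- The outgoing field. -/
abbrev RO (O : Set E6) (M : ℝ) : Der (Sm (on O)) := (kO O M M 0).R

/-- The field R is a null geodesic field with the affine parameter r. -/
structure Rid (M : ℝ) (O : Set E6) (g : Tw) : Prop where
  RR : (ge O g).dot ((hp _).prj (RO O M)) ((hp _).prj (RO O M)) = 0
  RT : 2 * (ge O g).dot ((hp _).prj (RO O M)) ((hp _).prj ((hp _).d 0)) = -1
  RO : ∀ i : Fin 4,
    RO O M ((ge O g).dot ((hp _).prj (RO O M)) ((hp _).prj ((hp _).d i.succ.succ))) = 0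

/-- The input. -/
structure Pre (M R : ℝ) (O : Set E6) (g : Tw) : Prop where
  co : Cone O
  rad : ∀ x ∈ O, 7 * M ≤ x.2.1
  star : ∀ x ∈ O, Seg M R x ⊆ O
  lv : ∀ x ∈ O, ∃ W, Lv g W ∧ pj x ∈ W
  rid : Rid M O g

/-- The differences to Kerr. -/
def dd (O : Set E6) (g : Tw) (F : Fr (Sm (on O))) (M0 M a : ℝ) (i : (Fin 4 × Fin 6) ⊕ Fin 13) :
    Sm (on O) :=
  dat (hp _) (pO O M0 M a) (F.ghp (ge O g)) i - dat (hp _) (pO O M0 M a) (out (kO O M0 M a)) i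

/-- The gauge. -/
structure Gau (O : Set E6) (g : Tw) (F : Fr (Sm (on O))) (M0 M a : ℝ) : Prop where
  wn : F.WN (ge O g)
  th : (F.ghp (ge O g)).th = oth (kO O M0 M a)
  ka : (F.ghp (ge O g)).ka = 0
  ta : (F.ghp (ge O g)).ta' = (kO O M0 M a).ta2
  lT : 2 * (ge O g).dot F.l ((hp _).prj ((hp _).d 0)) = -(hp _).N

section
variable (M0 a0 R : ℝ) (F : ∀ O : Set E6, Tw → ℝ → ℝ → Fr (Sm (on O)))

/-- The comparison on r ≤ ρ. -/
def Ntwo : Prop := ∀ n, ∃ m, ∀ ρ, ∃ C, ∃ e > 0, ∀ O g M a A B, Pre M0 R O g → IsTh M0 M a A B →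
  |M - M0| + |a - a0| ≤ e → ∀ x ∈ O, An x → R ≤ x.2.1 → 0 ≤ uu M0 x + x.2.1 → x.2.1 ≤ ρ →
  ∀ d ∈ Icc 0 e, (∀ y ∈ Seg M0 R x, P354XE.Bd m (g - P354XE.pb (sh A B) (gin M a)) (pj y) d) →
  ∀ i, q2 (lt (hp _) (pO O M0 M a)) x n (dd O g (F O g M a) M0 M a i) ≤ (C * d) ^ 2

/-- The comparison in the layer. -/
def Lay : Prop := ∀ n, ∃ m, ∃ C, ∃ e > 0, ∀ O g gc M a A B, Pre M0 R O g → IsTh M0 M0 a0 A B →
  |M - M0| + |a - a0| ≤ e → ∀ x ∈ O, An x → 2 * R ≤ x.2.1 → 0 ≤ uu M0 x + x.2.1 →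
  uu M0 x + x.2.1 ≤ x.2.1 / 10 → ∀ d ∈ Icc 0 e,
  (∀ y ∈ Seg M0 R x, g =ᶠ[𝓝 (pj y)] P354XE.pb (sh A B) gc ∧
    P354YI.Sm m d (gc - gin M0 a0) (sh A B (pj y))) →
  ∀ i, q2 (ll (hp _) (pO O M0 M a)) x n (dd O g (F O g M a) M0 M a i) ≤
    (C * (d + |M - M0| + |a - a0|) / x.2.1 ^ dm i) ^ 2

end

/-- FTWO: the frame, its gauge, and the two comparisons. -/
def FTWO : Prop := ∀ M0 a0 R : ℝ, |a0| < M0 → 10 * M0 + 10 ≤ R →
  ∃ F : ∀ O : Set E6, Tw → ℝ → ℝ → Fr (Sm (on O)),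
    (∀ O g M a, Pre M0 R O g → Gau O g (F O g M a) M0 M a) ∧ Ntwo M0 a0 R F ∧ Lay M0 a0 R F

end Vale.Agent.P354F2
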