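import Vale.Agent.P354YK.La
import Vale.Agent.P354YK.G2
import Vale.Agent.P354YK.Met
import Vale.Agent.P354XD.GS

/-!
The algebraic construction of the frame along the outgoing rays.
-/

namespace Vale.Agent.P354F2

open Vale.Agent.P354XG Vale.Agent.P354XG.Geo Vale.Agent.P354XD Vale.Agent.P354XR Vale.Agent.P354Z
  Vale.Agent.P354YK

variable {A : Type} [CommRing A] [Algebra ℂ A]

section defs
variable (K : Hp A) (p : Pm A) (S : Geo A) (qd ex : A → A) (u k : A)

/-- The frame of Kerr with the time field in the place of n. -/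
noncomputable def pre : Fr A := { frO K p with n := (2 * K.Ni) • K.prj (K.d 0) }

/-- The frame after the first step. -/
noncomputable def f1 : Fr A := (pre K p).g1 S 1 (hf A) 1

/-- The rotation about l. -/
def rot (F : Fr A) (b : A) : Fr A :=
  ⟨F.l, rn S F.l F.n F.m F.mb b, F.m + S.c b • F.l, F.mb + b • F.l⟩

/-- The spin. -/
def spn (F : Fr A) (e : A) : Fr A := ⟨F.l, F.n, e • F.m, S.c e • F.mb⟩

noncomputable def bK : A := -(K.Ni * (ii A * p.a * K.kc.sb * (kk K p).z))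

/-- The null frame which is the frame of Kerr for the Kerr metric. -/
noncomputable def fb : Fr A := rot S { (f1 K p S).g2 S u k with l := (frO K p).l } (bK K p)

noncomputable def ul : Op A := ⟨(frO K p).l, 0, 0⟩

/-- The sources, the two quadratures and the frame. -/
noncomputable def so : A := K.Ni * om S (ul K p) (fb K p S u k).m (fb K p S u k).mb
noncomputable def fe : A := ex (-qd (so K p S u k))
noncomputable def sq : A := K.Ni * (S.c (fe K p S qd ex u k) *
  t0 S (ul K p) (fb K p S u k).n (fb K p S u k).mb - (kk K p).ta2)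
noncomputable def fr2 : Fr A :=
  rot S (spn S (fb K p S u k) (fe K p S qd ex u k)) (qd (sq K p S qd ex u k))

/-- The chart, the geometry and the identities along the rays. -/
structure Bs : Prop where
  is : K.Is
  pis : p.Is K
  j1 : p.j1 = 0
  geo : ∃ g Γ, S = K.geo g Γ
  hS : S.Is
  RR : S.dot (K.prj (kk K p).R) (K.prj (kk K p).R) = 0
  RT : 2 * S.dot (K.prj (kk K p).R) (K.prj (K.d 0)) = -1
  RO : ∀ i : Fin 4, (kk K p).R (S.dot (K.prj (kk K p).R) (K.prj (K.d i.succ.succ))) = 0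

/-- The quadrature and the exponential function. -/
structure Qd : Prop where
  R : ∀ f, (kk K p).R (qd f) = f
  H : ∀ f, K.H (qd f) = qd (K.H f)
  B : ∀ f, K.B (qd f) = qd (K.B f)
  c : ∀ f, K.c (qd f) = qd (K.c f)
  lin : ∀ (z : ℂ) f, qd (algebraMap ℂ A z * f) = algebraMap ℂ A z * qd f
  d : ∀ i f, K.d i (ex f) = ex f * K.d i f
  ce : ∀ f, K.c (ex f) = ex (K.c f)
  neg : ∀ f, ex f * ex (-f) = 1

end defs

variable {K : Hp A} {p : Pm A} {S : Geo A} {qd ex : A → A} {s u k : A}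

theorem l_eq (K : Hp A) (p : Pm A) : (frO K p).l = K.N • K.prj (kk K p).R :=
  funext fun _ => oth_ap _ _

theorem R_ap (e : p.j1 = 0) (f : A) : (kk K p).R f = K.d 1 f - p.h1 * K.d 0 f := by
  rw [kk_R, e, zero_mul, sub_zero]; rfl

namespace Qd
variable (q : Qd K p qd ex)
include q

theorem zero : qd 0 = 0 := by simpa using q.lin 0 0
theorem neg' (f : A) : qd (-f) = -qd f := by simpa using q.lin (-1) f
theorem two (f : A) : qd (-(2 * f)) = -(2 * qd f) := by
  simpa [map_ofNat] using q.lin (-2) f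

end Qd

namespace Bs
variable (h : Bs K p S)
include h

theorem cHB : S.c = K.c ∧ S.H = K.H ∧ S.Hb = K.B := by
  obtain ⟨g, Γ, rfl⟩ := h.geo
  exact ⟨rfl, rfl, rfl⟩

theorem ll : S.dot (frO K p).l (frO K p).l = 0 := by
  rw [l_eq, dot_smul_left, dot_smul_right, h.RR, mul_zero, mul_zero]

theorem lT : 2 * S.dot (frO K p).l (K.prj (K.d 0)) = -K.N := by
  rw [l_eq, dot_smul_left]; linear_combination K.N * h.RT

theorem act_ul (f : A) : S.act (ul K p) f = K.N * (kk K p).R f := by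
  obtain ⟨g, Γ, rfl⟩ := h.geo
  have := h.is.act_prj g Γ (-(K.N * p.h1)) K.N 0 0 0 0 f
  have e : K.kc.V (-(K.N * p.h1)) K.N 0 0 0 0 = oth (kk K p) := Derivation.ext fun f => by
    rw [oth_ap, R_ap h.j1, KC.V_ap]; simp only [Hp.kc, kk]; ring
  rw [e, oth_ap] at this
  exact this

theorem rw : (pre K p).RW S := by
  obtain ⟨g, Γ, rfl⟩ := h.geo
  have r := frO_rw h.is h.pis g Γ
  have k := h.is.kc
  refine ⟨r.c_l, ?_, r.c_m, r.H_l, ?_, r.H_m, r.Hb_m⟩
  · show (K.geo g Γ).cv (_ • _) = _ • _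
    rw [P354YK.cv_smul, cv_prj h.is g Γ h.is.c0]
    exact congrArg (· • _) ((map_mul K.c _ _).trans (by rw [map_ofNat, h.is.c_Ni]))
  · show dv K.H (_ • _) = -(_ • _)
    rw [P354YK.dv_smul, dv_prj (D := K.d 0) (w := 0) (fun f => by
      rw [zero_mul, add_zero]; exact k.H_T f) fun a => (h.is.tco a).2.2.2.2.1, D_mul, D_num,
      h.is.tab.2.2.2.2.1]
    module

theorem e1 : (pre K p).E1 S 1 (hf A) 1 := by
  have a : S.dot (pre K p).l (pre K p).n = -1 := by
    show S.dot (frO K p).l (_ • _) = _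
    rw [dot_smul_right]
    linear_combination K.Ni * h.lT - h.is.hN
  have b : S.dot (pre K p).l (pre K p).l = 0 := h.ll
  exact ⟨by rw [a, b]; ring, map_one _, by rw [a]; linear_combination two_hf (A := A), mul_one _⟩

theorem f1_l : (f1 K p S).l = (frO K p).l := by
  have b : S.dot (pre K p).l (pre K p).l = 0 := h.ll
  simp only [f1, Fr.g1, Fr.gl, b, zero_mul, zero_smul, add_zero]
  rfl

theorem bK_wt : S.H (bK K p) = -(2 * bK K p) ∧ S.Hb (bK K p) = 0 := by
  have k := kk_is h.is h.pis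
  have a1 : K.H p.a = 0 := k.H_a
  have a2 : K.B p.a = 0 := k.B_a
  have s1 : K.H K.kc.sb = -K.kc.sb := k.H_sb
  have s2 : K.B K.kc.sb = K.kc.sb := k.B_sb
  have z1 : K.H (kk K p).z = 0 := k.wts.2.2.2.2.2.2.2.2.2.2.1
  have z2 : K.B (kk K p).z = 0 := k.wts.2.2.2.2.2.2.2.2.2.2.2
  simp only [h.cHB, bK, D_neg, D_mul, D_ii, a1, a2, s1, s2, z1, z2, h.is.tab.2.2.2.2.1,
    h.is.tab.2.2.2.2.2.1]
  constructor <;> ring

theorem fb_wn (e : (f1 K p S).E2 S s u k) : (fb K p S u k).WN S := by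
  have w : WNull S (f1 K p S).l _ _ _ := h.rw.gs h.hS h.e1 e
  rw [h.f1_l] at w
  exact P354YK.rot h.hS w h.bK_wt.1 h.bK_wt.2

/-- The derivative along the ray of the product of l with a field which commutes with R. -/
theorem nab_dot {D : Der A} {w : Op A} (e : w.X = K.prj D) (a : ∀ f, S.act w f = D f)
    (c : ∀ f, (kk K p).R (D f) = D ((kk K p).R f)) (n : D K.N = 0)
    (z : (kk K p).R (S.dot (K.prj (kk K p).R) (K.prj D)) = 0) :
    S.dot (S.nab (ul K p) (frO K p).l) (K.prj D) = 0 := by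
  have hS := h.hS
  have b : (S.br (ul K p) w).X = 0 := funext fun i => by
    have : (ul K p).X i = K.N * (kk K p).R (K.co i) := oth_ap _ _
    simp only [br, dv, Pi.sub_apply, h.act_ul, a, Pi.zero_apply, this, e, Hp.prj, D_mul, c, n]
    ring
  rw [hS.br_X, sub_eq_zero] at b
  have y := hS.dot_flip w (Y := (frO K p).l) (Z := (frO K p).l) (by rw [h.ll, D_zero])
  have x := hS.act_dot (ul K p) (frO K p).l w.X
  rw [b, hS.dot_comm _ (S.nab w _), show S.dot (S.nab w (ul K p).X) (frO K p).l = 0 from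
    hS.half (S.dot (S.nab w (frO K p).l) (frO K p).l) (by linear_combination y), add_zero, e,
    h.act_ul] at x
  rw [← x, l_eq, dot_smul_left, D_mul, z, show (kk K p).R K.N = 0 from (kk_is h.is h.pis).R_N]
  ring

theorem R_z (i : Fin 4) : (kk K p).R (K.z i.succ.succ) = 0 := by
  rw [R_ap h.j1, h.is.dz, h.is.dz]
  fin_cases i <;> simp

theorem ray {F : Fr A} (N : F.Nl S) : Ray S (ul K p) := by
  have k := kk_is h.is h.pis
  have t := two_hf (A := A)
  have hS := h.hS
  have a0 := h.nab_dot (D := K.d 0) (w := ⟨K.prj (K.d 0), 0, 0⟩) rfl (fun f => by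
    obtain ⟨g, Γ, rfl⟩ := h.geo
    simpa [KC.V, Hp.kc] using h.is.act_prj g Γ 1 0 0 0 0 0 f) k.R_T k.T_N (hS.half _ (by
      have := congrArg (kk K p).R h.RT
      rwa [D_mul, D_num, D_neg, D_one, neg_zero, mul_zero, add_zero] at this))
  have a2 := h.nab_dot (D := K.P) (w := ⟨K.prj K.P, 0, 0⟩) rfl (fun f => by
    obtain ⟨g, Γ, rfl⟩ := h.geo
    simpa [KC.V, Hp.kc] using h.is.act_prj g Γ 0 0 1 0 0 0 f) (fun f => (k.P_R f).symm) k.P_N (by
      have e : K.prj K.P = K.z 4 • K.prj (K.d 3) - K.z 5 • K.prj (K.d 2) :=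
        funext fun _ => K.P_ap _
      have := h.RO 0
      have := h.RO 1
      have := h.R_z 2
      have := h.R_z 3
      simp only [e, dot_sub_right, dot_smul_right, D_sub, D_mul]
      simp_all)
  have a3 := h.nab_dot (D := K.Q) (w := ⟨K.prj K.Q, 0, 0⟩) rfl (fun f => by
    obtain ⟨g, Γ, rfl⟩ := h.geo
    simpa [KC.V, Hp.kc] using h.is.act_prj g Γ 0 0 0 1 0 0 f) (fun f => (k.Q_R f).symm) k.Q_N (by
      have e : K.prj K.Q = K.z 2 • K.prj (K.d 5) - K.z 3 • K.prj (K.d 4) :=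
        funext fun _ => K.Q_ap _
      have := h.RO 2
      have := h.RO 3
      have := h.R_z 0
      have := h.R_z 1
      simp only [e, dot_sub_right, dot_smul_right, D_sub, D_mul]
      simp_all)
  have a1 : K.N * S.dot (S.nab (ul K p) (frO K p).l) (K.prj (kk K p).R) = 0 := by
    rw [← dot_smul_right, ← l_eq]
    exact hS.half _ (by
      linear_combination hS.dot_flip (ul K p) (Y := (frO K p).l) (Z := (frO K p).l)
        (by rw [h.ll, D_zero]))
  have all : ∀ Z, S.dot (S.nab (ul K p) (frO K p).l) Z = 0 := fun Z => by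
    obtain ⟨g, Γ, rfl⟩ := h.geo
    obtain ⟨e0, e1, e2, e3, e4, e5, e⟩ := act_ex (K := K) (p := p) (g := g) (Γ := Γ) ⟨Z, 0, 0⟩
    have z : Z = e0 • K.prj (K.d 0) + e1 • K.prj (kk K p).R + e2 • K.prj K.P + e3 • K.prj K.Q := by
      refine (prj_act h.is (g := g) (Γ := Γ) ⟨Z, 0, 0⟩).symm.trans (funext fun a => ?_)
      have := h.is.tco a
      simp only [e, Hp.prj, dv, KC.V_ap, Pi.add_apply, Pi.smul_apply, smul_eq_mul]
      rw [show (kk K p).H (K.co a) = 0 from this.2.2.2.2.1,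
        show (kk K p).B (K.co a) = 0 from this.2.2.2.2.2, mul_zero, mul_zero, add_zero, add_zero]
      rfl
    rw [z]
    simp only [dot_add_right, dot_smul_right, a0, a2, a3]
    linear_combination e1 * K.Ni * a1 - e1 * (K.geo g Γ).dot ((K.geo g Γ).nab (ul K p) (frO K p).l)
      (K.prj (kk K p).R) * h.is.hN
  refine ⟨⟨h.rw.c_l, map_zero _, map_zero _⟩, ?_⟩
  show S.nab (ul K p) (frO K p).l = 0
  rw [Null.span hS N (S.nab (ul K p) (frO K p).l)]
  simp only [all, neg_zero, zero_smul, add_zero]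

theorem wt_ul : Wt S.H (ul K p) 1 ∧ Wt S.Hb (ul K p) 1 :=
  ⟨⟨h.rw.H_l.trans (one_smul _ _).symm, by simp [ul], by simp [ul]⟩,
    ⟨(h.rw.Hb_l h.hS).trans (one_smul _ _).symm, by simp [ul], by simp [ul]⟩⟩

/-- The frame and its gauge. -/
theorem fr2_ok (q : Qd K p qd ex) (e : (f1 K p S).E2 S s u k) : Og K p S (fr2 K p S qd ex u k) ∧
    ((fr2 K p S qd ex u k).ghp S).ta' = (kk K p).ta2 := by
  have w := h.fb_wn e
  have r := h.ray w.nl
  have kk' := kk_is h.is h.pis
  obtain ⟨c1, c2, c3⟩ := h.cHB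
  obtain ⟨o1, o2, o3, o4⟩ := wt_om h.hS h.wt_ul.1 h.wt_ul.2 w
  have n1 := h.is.tab.2.2.2.2.1
  have n2 := h.is.tab.2.2.2.2.2.1
  have eH : ∀ f, K.H (ex f) = ex f * K.H f := fun f => by simp only [Hp.H_ap, q.d]; ring
  have eB : ∀ f, K.B (ex f) = ex f * K.B f := fun f => by simp only [Hp.B_ap, q.d]; ring
  have eR : ∀ f, (kk K p).R (ex f) = ex f * (kk K p).R f := fun f => by
    simp only [R_ap h.j1, q.d]; ring
  rw [c2] at o1 o3
  rw [c3] at o2 o4
  have e0 : fe K p S qd ex u k * S.c (fe K p S qd ex u k) = 1 := by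
    have := c_om h.hS r w.toNull
    rw [c1] at this
    rw [c1, fe, q.ce, map_neg, q.c, so, map_mul, h.is.c_Ni, this, mul_neg, q.neg']
    exact q.neg _
  have e1 : K.H (fe K p S qd ex u k) = 0 := by
    have : K.H (so K p S u k) = 0 := by rw [so, D_mul, o1, n1]; ring
    rw [fe, eH, D_neg, q.H, this, q.zero, neg_zero, mul_zero]
  have e2 : K.B (fe K p S qd ex u k) = 0 := by
    have : K.B (so K p S u k) = 0 := by rw [so, D_mul, o2, n2]; ring
    rw [fe, eB, D_neg, q.B, this, q.zero, neg_zero, mul_zero]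
  have d1 : K.H (S.c (fe K p S qd ex u k)) = 0 := by rw [c1, ← h.is.c_Bf, e2, map_zero]
  have d2 : K.B (S.c (fe K p S qd ex u k)) = 0 := by rw [c1, ← h.is.c_H, e1, map_zero]
  have t1 : K.H (kk K p).ta2 = -(kk K p).ta2 := kk'.wts.2.2.2.2.2.2.1
  have t2 : K.B (kk K p).ta2 = (kk K p).ta2 := kk'.wts.2.2.2.2.2.2.2.1
  obtain ⟨x, y⟩ := P354YK.g2 h.hS r w (e := fe K p S qd ex u k) (b := qd (sq K p S qd ex u k))
    (t := (kk K p).ta2) e0 (c2 ▸ e1) (c3 ▸ e2) (by
      rw [h.act_ul, fe, eR, D_neg, q.R, so]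
      linear_combination -(om S (ul K p) (fb K p S u k).m (fb K p S u k).mb *
        ex (-qd (K.Ni * om S (ul K p) (fb K p S u k).m (fb K p S u k).mb))) * h.is.hN)
    (by
      rw [c2, q.H, ← q.two, sq]
      simp only [D_mul, D_sub, n1, d1, o3, t1]
      exact congrArg qd (by ring))
    (by
      rw [c3, q.B, ← q.zero, sq]
      simp only [D_mul, D_sub, n2, d2, o4, t2]
      exact congrArg qd (by ring))
    (by rw [h.act_ul, q.R, sq, ← mul_assoc, h.is.hN, one_mul])
  obtain ⟨y1, y2, y3⟩ := y _ rfl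
  exact ⟨⟨h.is, h.pis, h.geo, h.hS, x, y1.trans (Derivation.ext fun f => by
    rw [h.act_ul, oth_ap]; rfl), y2, h.lT⟩, y3⟩

end Bs

end Vale.Agent.P354F2
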