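import Vale.Agent.P354F2.Sc
import Vale.Agent.P354XD.Cmp
import Vale.Agent.P354RI.Fun
import Vale.Agent.P354YK.Box

/-!
Pairs of bounded families whose difference is small, and the comparison of two geometries.
-/

namespace Vale.Agent.P354F2

open Vale.Agent.P354XG Vale.Agent.P354XG.Geo Vale.Agent.P354XD Vale.Agent.P354XR Vale.Agent.P354Z
  Vale.Agent.P354XI
open Vale.Agent.P354BO (Oq)
open Vale.Agent.P354YK (rn om t0 fv_rs)

variable {J ι : Type} [Fintype ι] {O : J → Set E6}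

/-- The letters, the points and the weight. -/
structure Ev (ι : Type) (O : J → Set E6) where
  X : ∀ j, ι → Der (Sm (on (O j)))
  x : J → E6
  μ : J → ℝ

variable (E : Ev ι O)

/-- Both families are bounded and the difference is small. -/
structure Cg (n : ℕ) (f g : ∀ j, Sm (on (O j))) : Prop where
  a : Oq E.X E.x n 1 f
  b : Oq E.X E.x n 1 g
  d : Oq E.X E.x n E.μ fun j => f j - g j

def Cv (n : ℕ) (X Y : ∀ j, Vec (Sm (on (O j)))) : Prop :=
  ∀ a, Cg E n (fun j => X j a) fun j => Y j a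

structure Cl (k : ℕ) (F G : ∀ j, Fr (Sm (on (O j)))) : Prop where
  l : Cv E k (fun j => (F j).l) fun j => (G j).l
  n : Cv E k (fun j => (F j).n) fun j => (G j).n
  m : Cv E k (fun j => (F j).m) fun j => (G j).m
  mb : Cv E k (fun j => (F j).mb) fun j => (G j).mb

structure Co (n : ℕ) (u w : ∀ j, Op (Sm (on (O j)))) : Prop where
  X : Cv E n (fun j => (u j).X) fun j => (w j).X
  a : Cg E n (fun j => (u j).a) fun j => (w j).a
  b : Cg E n (fun j => (u j).b) fun j => (w j).b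

/-- Two geometries on the same bundle; the fields lose one order. -/
structure St (S S0 : ∀ j, Geo (Sm (on (O j)))) : Prop where
  same : ∀ j, Same (S j) (S0 j)
  is : ∀ j, (S j).Is
  is0 : ∀ j, (S0 j).Is
  L : ∀ a n ν f, Oq E.X E.x (n + 1) ν f → Oq E.X E.x n ν fun j => (S j).L a (f j)
  H : ∀ n ν f, Oq E.X E.x (n + 1) ν f → Oq E.X E.x n ν fun j => (S j).H (f j)
  Hb : ∀ n ν f, Oq E.X E.x (n + 1) ν f → Oq E.X E.x n ν fun j => (S j).Hb (f j)
  c : ∀ n ν f, Oq E.X E.x n ν f → Oq E.X E.x n ν fun j => (S j).c (f j)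

variable {E} {n m : ℕ} {f g f' g' s : ∀ j, Sm (on (O j))} {X Y X' Y' Z Z' U U' : ∀ j, Vec (Sm (on (O j)))}
  {F G : ∀ j, Fr (Sm (on (O j)))} {S S0 : ∀ j, Geo (Sm (on (O j)))} {u w : ∀ j, Op (Sm (on (O j)))}

namespace Cg

theorem refl (h : Oq E.X E.x n 1 f) : Cg E n f f := ⟨h, h, Oq.zero.congr fun _ => sub_self _⟩
theorem of (k : ∀ j, E.μ j ^ 2 ≤ 1) (h : Oq E.X E.x n 1 g) (d : Oq E.X E.x n E.μ fun j => f j - g j) :
    Cg E n f g :=
  ⟨((d.wt (ν := 1) fun j => by simpa using k j).add h).congr fun _ => (sub_add_cancel _ _).symm, h, d⟩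
theorem le (h : Cg E n f g) (k : m ≤ n) : Cg E m f g := ⟨h.a.le k, h.b.le k, h.d.le k⟩
theorem tw (h : Cg E n f g) (e : ∀ j, g j = g' j) : Cg E n f g' := funext e ▸ h
theorem fr (h : Cg E n f g) (e : ∀ j, f' j = f j) : Cg E n f' g := funext e ▸ h
theorem trans (h : Cg E n f g) (h' : Cg E n g f') : Cg E n f f' :=
  ⟨h.a, h'.b, (h.d.add h'.d).congr fun _ => (sub_add_sub_cancel _ _ _).symm⟩
theorem add (h : Cg E n f g) (h' : Cg E n f' g') :
    Cg E n (fun j => f j + f' j) fun j => g j + g' j :=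
  ⟨h.a.add h'.a, h.b.add h'.b, (h.d.add h'.d).congr fun _ => by ring⟩
theorem neg (h : Cg E n f g) : Cg E n (fun j => -f j) fun j => -g j :=
  ⟨h.a.neg, h.b.neg, h.d.neg.congr fun _ => by ring⟩
theorem sub (h : Cg E n f g) (h' : Cg E n f' g') :
    Cg E n (fun j => f j - f' j) fun j => g j - g' j :=
  ⟨h.a.sub h'.a, h.b.sub h'.b, (h.d.sub h'.d).congr fun _ => by ring⟩
theorem mul (h : Cg E n f g) (h' : Cg E n f' g') :
    Cg E n (fun j => f j * f' j) fun j => g j * g' j :=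
  ⟨h.a.mul h'.a, h.b.mul h'.b, ((h.a.mul h'.d).add (h.d.mull h'.b)).congr fun _ => by ring⟩
theorem sum {κ : Type} (t : Finset κ) {F G : κ → ∀ j, Sm (on (O j))}
    (h : ∀ i, Cg E n (F i) (G i)) : Cg E n (fun j => ∑ i ∈ t, F i j) fun j => ∑ i ∈ t, G i j :=
  ⟨.sum t fun i => (h i).a, .sum t fun i => (h i).b,
    (Oq.sum t fun i => (h i).d).congr fun _ => Finset.sum_sub_distrib _ _ |>.symm⟩
theorem zero : Cg E n (fun _ => 0) fun _ => 0 := refl .zero
theorem one : Cg E n (fun _ => 1) fun _ => 1 := refl .one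
theorem hf : Cg E n (fun _ => hf _) fun _ => hf _ := refl .hf
theorem small (h : Cg E n f g) (e : ∀ j, g j = 0) : Oq E.X E.x n E.μ f :=
  h.d.congr fun j => by rw [e, sub_zero]

theorem lin {D : ∀ j, Sm (on (O j)) → Sm (on (O j))} (e : ∀ j a b, D j (a - b) = D j a - D j b)
    (k : ∀ ν f, Oq E.X E.x n ν f → Oq E.X E.x m ν fun j => D j (f j)) (h : Cg E n f g) :
    Cg E m (fun j => D j (f j)) fun j => D j (g j) :=
  ⟨k _ _ h.a, k _ _ h.b, (k _ _ h.d).congr fun j => (e j _ _).symm⟩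

end Cg

theorem Cv.le (h : Cv E n X Y) (k : m ≤ n) : Cv E m X Y := fun a => (h a).le k
theorem Cv.add (h : Cv E n X Y) (h' : Cv E n X' Y') :
    Cv E n (fun j => X j + X' j) fun j => Y j + Y' j := fun a => (h a).add (h' a)
theorem Cv.smul (h : Cg E n f g) (h' : Cv E n X Y) :
    Cv E n (fun j => f j • X j) fun j => g j • Y j := fun a => h.mul (h' a)
theorem Cl.le (h : Cl E n F G) (k : m ≤ n) : Cl E m F G :=
  ⟨h.l.le k, h.n.le k, h.m.le k, h.mb.le k⟩
theorem Cl.tw {G' : ∀ j, Fr (Sm (on (O j)))} (h : Cl E n F G) (e : ∀ j, G j = G' j) :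
    Cl E n F G' := funext e ▸ h

/-- The metrics and the Christoffel symbols are close. -/
def Mg (E : Ev ι O) (n : ℕ) (S S0 : ∀ j, Geo (Sm (on (O j)))) : Prop :=
  ∀ a b, Cg E n (fun j => (S j).g a b) fun j => (S0 j).g a b
def Mc (E : Ev ι O) (n : ℕ) (S S0 : ∀ j, Geo (Sm (on (O j)))) : Prop :=
  ∀ a b d, Cg E n (fun j => (S j).Γ a b d) fun j => (S0 j).Γ a b d

theorem Mg.le (h : Mg E n S S0) (k : m ≤ n) : Mg E m S S0 := fun a b => (h a b).le k
theorem Mc.le (h : Mc E n S S0) (k : m ≤ n) : Mc E m S S0 := fun a b d => (h a b d).le k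

theorem Mg.dot (hg : Mg E n S S0) (h : Cv E n X X') (h' : Cv E n Y Y') :
    Cg E n (fun j => (S j).dot (X j) (Y j)) fun j => (S0 j).dot (X' j) (Y' j) :=
  .sum _ fun a => .sum _ fun b => ((hg a b).mul (h a)).mul (h' b)

theorem Mg.g1 (hg : Mg E n S S0) (b : Cl E n F G) :
    Cl E n (fun j => (F j).g1 (S j) 1 (hf _) 1) fun j => (G j).g1 (S0 j) 1 (hf _) 1 :=
  have l := b.l.add (.smul ((hg.dot b.l b.l).mul .hf) b.n)
  have k := Cv.smul (((Cg.hf.mul (Cg.one.sub (hg.dot b.l b.n))).mul .one).fr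
    (f' := fun j => hf _ * (1 - (S j).dot (F j).l (F j).n) * 1 ^ 2) (fun _ => by rw [one_pow]) |>.tw
    (g' := fun j => hf _ * (1 - (S0 j).dot (G j).l (G j).n) * 1 ^ 2) fun _ => by rw [one_pow])
    (b.n.add (.smul ((hg.dot b.n b.n).mul .hf) b.l))
  ⟨l, k, (b.m.add (.smul (hg.dot b.m k) l)).add (.smul (hg.dot b.m l) k),
    (b.mb.add (.smul (hg.dot b.mb k) l)).add (.smul (hg.dot b.mb l) k)⟩

namespace St
variable (t : St E S S0)
include t

theorem cL (a : Fin 4) (h : Cg E (n + 1) f g) :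
    Cg E n (fun j => (S j).L a (f j)) fun j => (S0 j).L a (g j) :=
  (h.lin (fun _ => D_sub _) (t.L a n)).tw fun j => by rw [(t.same j).L]

theorem cc (h : Cg E n f g) : Cg E n (fun j => (S j).c (f j)) fun j => (S0 j).c (g j) :=
  (h.lin (fun j => map_sub (S j).c) (t.c n)).tw fun j => by rw [(t.same j).c]

theorem act (k : Co E n u w) (h : Cg E (n + 1) f g) :
    Cg E n (fun j => (S j).act (u j) (f j)) fun j => (S0 j).act (w j) (g j) :=
  ((((Cg.sum _ fun a => (k.X a).mul (t.cL a h)).add (k.a.mul (h.lin (fun _ => D_sub _) (t.H n)))).add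
    (k.b.mul (h.lin (fun _ => D_sub _) (t.Hb n)))).fr fun _ => act_apply _ _ _).tw fun j => by
      rw [act_apply, (t.same j).H, (t.same j).Hb]

theorem nab (c : Mc E n S S0) (k : Co E n u w) (h : Cv E (n + 1) Z Z') :
    Cv E n (fun j => (S j).nab (u j) (Z j)) fun j => (S0 j).nab (w j) (Z' j) := fun d =>
  (t.act k (h d)).add (.sum _ fun a => .sum _ fun b =>
    ((c a b d).mul (k.X a)).mul ((h b).le n.le_succ))

theorem rot (b : Cl E n F G) (h : Cg E n f g) :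
    Cl E n (fun j => rot (S j) (F j) (f j)) fun j => rot (S0 j) (G j) (g j) :=
  ⟨b.l, ((b.n.add (.smul h b.m)).add (.smul (t.cc h) b.mb)).add (.smul (h.mul (t.cc h)) b.l),
    b.m.add (.smul (t.cc h) b.l), b.mb.add (.smul h b.l)⟩

theorem spn (b : Cl E n F G) (h : Cg E n f g) :
    Cl E n (fun j => spn (S j) (F j) (f j)) fun j => spn (S0 j) (G j) (g j) :=
  ⟨b.l, b.n, .smul h b.m, .smul (t.cc h) b.mb⟩

theorem gam (hg : Mg E (n + 1) S S0) (N : ∀ j, (F j).Nl (S j)) (N0 : ∀ j, (G j).Nl (S0 j))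
    (b : Cl E n F G) : Mc E n S S0 := fun a c d => by
  have k : ∀ {A : Type} [CommRing A] [Algebra ℂ A] {S : Geo A}, S.Is → ∀ X : Vec A,
      S.dot (S.Γ a c) X = ∑ d, hf A * (S.L a (S.g c d) + S.L c (S.g a d) - S.L d (S.g a c)) * X d :=
    fun h X => by simp only [← koszul h, dot, Fin.sum_univ_four]; ring
  have k2 : ∀ {X X'}, Cv E n X X' → Cg E n (fun j => (S j).dot ((S j).Γ a c) (X j))
      fun j => (S0 j).dot ((S0 j).Γ a c) (X' j) := fun h =>
    ((Cg.sum _ fun d => (Cg.hf.mul (((t.cL a (hg c d)).add (t.cL c (hg a d))).sub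
      (t.cL d (hg a c)))).mul (h d)).fr fun j => k (t.is j) _).tw fun j => (k (t.is0 j) _).symm
  exact ((((((Cv.smul (k2 b.n).neg b.l).add (.smul (k2 b.l).neg b.n)).add
    (.smul (k2 b.mb) b.m)).add (.smul (k2 b.m) b.mb)) d).fr
      fun j => congrFun (Null.span (t.is j) (N j) _) d).tw
    fun j => (congrFun (Null.span (t.is0 j) (N0 j) _) d).symm

theorem W (hg : Mg E n S S0) (c : Mc E (n + 1) S S0) (h1 : Cv E n X X') (h2 : Cv E n Y Y')
    (h3 : Cv E n Z Z') (h4 : Cv E n U U') :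
    Cg E n (fun j => (S j).W (X j) (Y j) (Z j) (U j)) fun j => (S0 j).W (X' j) (Y' j) (Z' j) (U' j) :=
  have c0 := c.le n.le_succ
  hg.dot (fun d => .sum _ fun a => .sum _ fun b => .sum _ fun e =>
    (((((t.cL a (c b e d)).sub (t.cL b (c a e d))).add (.sum _ fun y =>
      ((c0 b e y).mul (c0 a y d)).sub ((c0 a e y).mul (c0 b y d)))).mul (h1 a)).mul (h2 b)).mul
        (h3 e)) h4

theorem hat (hg : Mg E n S S0) (c : Mc E n S S0) (b : Cl E (n + 1) F G) (h : Cv E n X X') :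
    Co E n (fun j => hat (S j) (F j).l (F j).n (F j).m (F j).mb (X j))
      fun j => hat (S0 j) (G j).l (G j).n (G j).m (G j).mb (X' j) :=
  have k : Co E n (fun j => ⟨X j, 0, 0⟩) fun j => ⟨X' j, 0, 0⟩ := ⟨h, .zero, .zero⟩
  have a1 := hg.dot (t.nab c k b.l) (b.n.le n.le_succ)
  have a2 := hg.dot (t.nab c k b.m) (b.mb.le n.le_succ)
  ⟨h, Cg.hf.mul (a1.sub a2), Cg.hf.mul (a1.add a2)⟩

variable (hg : Mg E n S S0) (c : Mc E (n + 1) S S0) (b : Cl E (n + 1) F G)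
include hg c b

theorem f4 (i : Fin 4) (h : Cg E (n + 1) f g) :
    Cg E n (fun j => f4 ((F j).ghp (S j)) i (f j)) fun j => f4 ((G j).ghp (S0 j)) i (g j) := by
  have b0 := b.le n.le_succ
  have u := fun {X X'} (h : Cv E n X X') => t.hat hg (c.le n.le_succ) b h
  fin_cases i
  exacts [t.act (u b0.l) h, t.act (u b0.n) h, t.act (u b0.m) h, t.act (u b0.mb) h]

theorem sc (i : Fin 13) :
    Cg E n (fun j => sc ((F j).ghp (S j)) i) fun j => sc ((G j).ghp (S0 j)) i := by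
  have b0 := b.le n.le_succ
  have c0 := c.le n.le_succ
  have u := fun {X X'} (h : Cv E n X X') => t.hat hg c0 b h
  fin_cases i
  exacts [(hg.dot (t.nab c0 (u b0.l) b.l) b0.m).neg, (hg.dot (t.nab c0 (u b0.m) b.l) b0.m).neg,
    (hg.dot (t.nab c0 (u b0.mb) b.l) b0.m).neg, (hg.dot (t.nab c0 (u b0.n) b.l) b0.m).neg,
    (hg.dot (t.nab c0 (u b0.n) b.n) b0.mb).neg, (hg.dot (t.nab c0 (u b0.mb) b.n) b0.mb).neg,
    (hg.dot (t.nab c0 (u b0.m) b.n) b0.mb).neg, (hg.dot (t.nab c0 (u b0.l) b.n) b0.mb).neg,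
    (t.W hg c b0.l b0.m b0.l b0.m).neg, (t.W hg c b0.l b0.n b0.l b0.m).neg,
    t.W hg c b0.n b0.mb b0.l b0.m, (t.W hg c b0.n b0.l b0.n b0.mb).neg,
    (t.W hg c b0.n b0.mb b0.n b0.mb).neg]

end St

/-! ### Roots and the exponential function -/

theorem oq_root {c : ℝ} (hc : 0 < c) (l : ∀ j, c ≤ ‖fv (s j) (E.x j)‖) :
    ∀ n, (Oq E.X E.x n 1 fun j => s j * s j) → Oq E.X E.x n 1 s
  | 0, ⟨C, _, h⟩ => .of1 (B := C / c ^ 2) fun j => by
      have := h j
      rw [q2, fv_mul, norm_mul, mul_pow, Pi.one_apply, one_pow, mul_one] at this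
      rw [q2, le_div_iff₀ (by positivity)]
      exact (mul_le_mul_of_nonneg_left (pow_le_pow_left₀ hc.le (l j) 2) (sq_nonneg _)).trans this
  | n + 1, h =>
    have a := oq_root hc l n (h.le n.le_succ)
    a.succ fun b => Oq.div hc l a n le_rfl ((Oq.hf.mul (h.der b)).congr fun j => by
      rw [D_mul]
      linear_combination -(s j * E.X j b (s j)) * two_hf (A := Sm (on (O j))))

theorem one_le_re {z : ℂ} (h : 0 ≤ z.re) : 1 ≤ ‖z + 1‖ :=
  le_trans (by simpa using h) (Complex.re_le_norm _)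

theorem Cg.root (k : ∀ j, E.μ j ^ 2 ≤ 1) (m : ∀ j, E.x j ∈ O j) {c : ℝ} (hc : 0 < c)
    (l : ∀ j, c ≤ ‖fv (s j) (E.x j)‖) (r : ∀ j, 0 ≤ rv (s j) (E.x j))
    (h : Cg E n (fun j => s j * s j) fun _ => 1) : Cg E n s fun _ => 1 :=
  .of k .one (Oq.div one_pos (u := fun j => s j + 1) (fun j => by
    rw [fv_add, fv_rs rs_one (m j)]; exact one_le_re (r j)) ((oq_root hc l n h.a).add .one) n le_rfl
      (h.d.congr fun j => by ring))

theorem Cg.ex (k : ∀ j, E.μ j ^ 2 ≤ 1) (m : ∀ j, E.x j ∈ O j)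
    (e : ∀ j a f, E.X j a (P354RI.ex f) = P354RI.ex f * E.X j a f) :
    ∀ n, Oq E.X E.x n E.μ f → Cg E n (fun j => P354RI.ex (f j)) fun _ => 1
  | 0, ⟨C, c0, h⟩ => .of k .one (.of (B := C * Real.exp (√C) ^ 2) fun j => by
      have a : ‖fv (f j) (E.x j)‖ ^ 2 ≤ C * E.μ j ^ 2 := h j
      have b : ‖fv (f j) (E.x j)‖ ≤ √C :=
        Real.le_sqrt_of_sq_le (a.trans (mul_le_of_le_one_right c0 (k j)))
      have d := Complex.norm_exp_sub_sum_le_norm_mul_exp (fv (f j) (E.x j)) 1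
      rw [q2, fv_rs ((P354RI.rs_ex (f j)).sub rs_one) (m j), ← fv_in _ (m j)]
      simp only [Finset.sum_range_one, pow_zero, Nat.factorial_zero, Nat.cast_one, div_one,
        pow_one] at d
      refine (pow_le_pow_left₀ (norm_nonneg _) d 2).trans ?_
      rw [mul_pow, mul_right_comm]
      gcongr)
  | n + 1, h =>
    have a := Cg.ex k m e n (h.le n.le_succ)
    .of k .one (a.d.succ fun b => (a.a.mul (h.der b)).congr fun j => by
      rw [D_sub, D_one, sub_zero, e])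

end Vale.Agent.P354F2
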