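import Vale.Agent.P354F2.Parts

/-!
The parts of FTWO, second list. Exact statements.
-/

open Set Filter Topology

noncomputable section

namespace Vale.Agent.P354F2

open Vale.Agent.P354n (R4)
open Vale.Agent.P354XG Vale.Agent.P354XD Vale.Agent.P354XR Vale.Agent.P354XI Vale.Agent.P354Z
open Vale.Agent.P354XE (Tw gin)
open Vale.Agent.P354XV (Lv)
open Vale.Agent.P354YO (sh IsTh)
open Vale.Agent.P354YK (gO frO out t0 la Og)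

/-- KID: the construction for the Kerr metric. -/
def KID : Prop := ∀ (A : Type) [CommRing A] [Algebra ℂ A] (K : Hp A) (p : Pm A) (S : Geo A),
  K.Is → p.Is K → p.j1 = 0 → (∃ Γ, S = K.geo (gO K p) Γ) → S.Is →
  S.dot (f1 K p S).m (f1 K p S).mb = 1 ∧ S.dot (f1 K p S).m (f1 K p S).m = 0 ∧
  S.dot (f1 K p S).mb (f1 K p S).mb = 0 ∧ fb K p S (Geo.hf A) 1 = frO K p ∧
  so K p S (Geo.hf A) 1 = 0 ∧ t0 S (ul K p) (frO K p).n (frO K p).mb = (kk K p).ta2 ∧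
  (frO K p).ghp S = out (kk K p) ∧ Og K p S (frO K p) ∧
  la K S (frO K p).l 0 = ii A * p.a * K.kc.sb ∧ la K S (frO K p).l 1 = -(ii A * p.a * K.kc.s) ∧
  cm K p (out (kk K p)).tp 2 = ii A * p.a * K.kc.s * K.Ni * p.sg ∧
  cm K p (out (kk K p)).tp 3 = -(ii A * p.a * K.kc.sb * K.Ni * p.sg)

/-- JWL: the metric of the collar in the chart of the estimates, in the scale c. -/
def JWL : Prop := (∀ M0 M a : ℝ, 0 < M0 → ∃ A B, IsTh M0 M a A B) ∧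
  ∀ (M0 a0 R : ℝ) (n : ℕ), |a0| < M0 → 10 * M0 + 10 ≤ R → ∃ C ≥ 0, ∃ e > 0,
    ∀ (g gc : Tw) (M a : ℝ) A B A' B' (q : R4) (c d : ℝ), IsTh M0 M0 a0 A B → IsTh M0 M a A' B' →
    |M - M0| + |a - a0| ≤ e → R ≤ P354XE.rd q → 1 ≤ c → c ≤ 2 * P354XE.rd q → 0 ≤ d →
    (∃ W, Lv g W ∧ q ∈ W) → g =ᶠ[𝓝 q] P354XE.pb (sh A B) gc →
    P354YI.Sm n d (gc - gin M0 a0) (sh A B q) →
    Jw n c (g - P354XE.pb (sh A' B') (gin M a)) q (C * (d + |M - M0| + |a - a0|) / c)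

/-- FAM: the comparison along a family. -/
def FAM (M0 R : ℝ) (F : ∀ O : Set E6, Tw → ℝ → ℝ → Fr (Sm (on O))) : Prop :=
  ∀ (n : ℕ) (κ : ℝ) (I : Type) (O P : I → Set E6) (l d M a : I → ℝ) (g : I → Tw)
    (A B : I → ℝ → ℝ), Fm M0 R κ O P l →
  (∀ i, Pre M0 R (O i) (g i) ∧ IsTh M0 (M i) (a i) (A i) (B i) ∧ |a i| < M i ∧
    M i ≤ 5 / 4 * M0 ∧ d i ∈ Icc 0 1 ∧ ∀ x ∈ P i, Jw (n + 2) (l i)
      (g i - P354XE.pb (sh (A i) (B i)) (gin (M i) (a i))) (pj x) (d i / l i)) →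
  ∃ e > 0, ∃ C, ∀ i, d i ≤ e → ∀ x ∈ P i, ∀ k,
    q2 (ll (hp _) (pO (O i) M0 (M i) (a i))) x n
      (dd (O i) (g i) (F (O i) (g i) (M i) (a i)) M0 (M i) (a i) k) ≤ (C * d i / l i ^ dm k) ^ 2 ∧
    (l i = 1 → q2 (lt (hp _) (pO (O i) M0 (M i) (a i))) x n
      (dd (O i) (g i) (F (O i) (g i) (M i) (a i)) M0 (M i) (a i) k) ≤ (C * d i) ^ 2)

/-- NTW and LAF: the two comparisons follow from the comparison along families. -/
def NTW : Prop := CORE → ∀ (M0 a0 R : ℝ) F, |a0| < M0 → 10 * M0 + 10 ≤ R → FAM M0 R F →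
  Ntwo M0 a0 R F
def LAF : Prop := CORE → JWL → ∀ (M0 a0 R : ℝ) F, |a0| < M0 → 10 * M0 + 10 ≤ R → FAM M0 R F →
  Lay M0 a0 R F

end Vale.Agent.P354F2
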