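import Vale.Agent.P354F2.Cg
import Vale.Agent.P354F2.Parts2

/-!
The comparison of the frame along the rays with the frame of Kerr.
-/

namespace Vale.Agent.P354F2

open Vale.Agent.P354XG Vale.Agent.P354XG.Geo Vale.Agent.P354XD Vale.Agent.P354XR Vale.Agent.P354Z
  Vale.Agent.P354XI Vale.Agent.P354YK
open Vale.Agent.P354BO (Oq Gz Gp oq_e0)

variable {J ι : Type} [Fintype ι] {O : J → Set E6} {E : Ev ι O} {n : ℕ}
  {K : ∀ j, Hp (Sm (on (O j)))} {p : ∀ j, Pm (Sm (on (O j)))} {S S0 : ∀ j, Geo (Sm (on (O j)))}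

/-- A family of fields which loses one order. -/
def Ls (E : Ev ι O) (D : ∀ j, Der (Sm (on (O j)))) : Prop :=
  ∀ n ν f, Oq E.X E.x (n + 1) ν f → Oq E.X E.x n ν fun j => D j (f j)

theorem oq_chg {κ : Type} [Fintype κ] {Y : ∀ j, κ → Der (Sm (on (O j)))}
    (h : ∀ a, Ls E fun j => Y j a) : ∀ n ν f, Oq E.X E.x n ν f → Oq Y E.x n ν f
  | 0, _, _, k => k
  | n + 1, ν, f, k => (oq_chg h n ν f (k.le n.le_succ)).succ fun a => oq_chg h n ν _ (h a n ν f k)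

theorem geo_eq {A : Type} [CommRing A] [Algebra ℂ A] {K : Hp A} {S : Geo A}
    (h : ∃ g Γ, S = K.geo g Γ) : S.c = K.c ∧ S.L = K.L ∧ S.H = K.H ∧ S.Hb = K.B := by
  obtain ⟨g, Γ, rfl⟩ := h
  exact ⟨rfl, rfl, rfl, rfl⟩

theorem roots {q a b s k : ℂ} (hq : ‖q - 1‖ ≤ 1 / 10) (ha : ‖a‖ ≤ 1 / 10) (hb : ‖b‖ ≤ 1 / 10)
    (e : s ^ 2 = q ^ 2 - a * b) (f : 2 * k ^ 2 * s ^ 2 = q + s) (r : 0 ≤ s.re) :
    1 / 2 ≤ ‖s‖ ∧ 1 / 2 ≤ ‖q + s‖ ∧ 1 / 2 ≤ ‖2 * (s * s)‖ ∧ 1 / 2 ≤ ‖k‖ := by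
  have q1 : 9 / 10 ≤ q.re := by
    have := (abs_le.1 ((Complex.abs_re_le_norm (q - 1)).trans hq)).1
    rw [Complex.sub_re, Complex.one_re] at this
    linarith
  have q2 : 9 / 10 ≤ ‖q‖ := q1.trans (Complex.re_le_norm q)
  have q3 : ‖q‖ ≤ 11 / 10 := by
    have := norm_add_le (q - 1) 1
    rw [sub_add_cancel, norm_one] at this
    linarith
  have ab : ‖a * b‖ ≤ 1 / 100 := by
    rw [norm_mul]; nlinarith [norm_nonneg a, norm_nonneg b]
  have s1 : ‖q‖ ^ 2 - ‖a * b‖ ≤ ‖s‖ ^ 2 := by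
    rw [← norm_pow, ← norm_pow, e]; exact norm_sub_norm_le _ _
  have s2 : ‖s‖ ^ 2 ≤ ‖q‖ ^ 2 + ‖a * b‖ := by
    rw [← norm_pow, ← norm_pow, e]; exact norm_sub_le _ _
  have s3 : 9 / 10 ≤ ‖q + s‖ :=
    le_trans (by rw [Complex.add_re]; linarith) (Complex.re_le_norm _)
  have k1 : 2 * ‖k‖ ^ 2 * ‖s‖ ^ 2 = ‖q + s‖ := by rw [← f]; simp
  have s4 : 4 / 5 ≤ ‖s‖ ^ 2 := by nlinarith
  have s5 : ‖s‖ ^ 2 ≤ 5 / 4 := by nlinarith
  refine ⟨by nlinarith [norm_nonneg s], by linarith, ?_, ?_⟩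
  · rw [norm_mul, norm_mul, Complex.norm_two]; nlinarith
  · by_contra c
    have : ‖k‖ ^ 2 ≤ 1 / 4 := by nlinarith [norm_nonneg k]
    nlinarith [sq_nonneg ‖k‖]

/-- The setting. -/
structure Ba (E : Ev ι O) (K : ∀ j, Hp (Sm (on (O j)))) (p : ∀ j, Pm (Sm (on (O j))))
    (S S0 : ∀ j, Geo (Sm (on (O j)))) : Prop where
  bs : ∀ j, Bs (K j) (p j) (S j)
  s0 : ∀ j, ∃ Γ, S0 j = (K j).geo (gO (K j) (p j)) Γ
  i0 : ∀ j, (S0 j).Is
  gz : ∀ n, Gz E.X E.x n K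
  gp : ∀ n, Gp E.X E.x n p
  d : ∀ a, Ls E fun j => (K j).d a
  c : ∀ n ν f, Oq E.X E.x n ν f → Oq E.X E.x n ν fun j => (K j).c (f j)
  mem : ∀ j, E.x j ∈ O j
  one : ∀ j, E.μ j ^ 2 ≤ 1
  ex : ∀ j a f, E.X j a (P354RI.ex f) = P354RI.ex f * E.X j a f

namespace Ba
variable (h : Ba E K p S S0)
include h

theorem P : Ls E fun j => (K j).P := fun n ν f k => (((h.gz n).z4.mul (h.d 3 n ν f k)).sub
  ((h.gz n).z5.mul (h.d 2 n ν f k))).congr fun j => (K j).P_ap _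
theorem Q : Ls E fun j => (K j).Q := fun n ν f k => (((h.gz n).z2.mul (h.d 5 n ν f k)).sub
  ((h.gz n).z3.mul (h.d 4 n ν f k))).congr fun j => (K j).Q_ap _
theorem H : Ls E fun j => (K j).H := fun n ν f k => (((h.gz n).z2.mul (h.d 2 n ν f k)).add
  ((h.gz n).z3.mul (h.d 3 n ν f k))).congr fun j => (K j).H_ap _
theorem B : Ls E fun j => (K j).B := fun n ν f k => (((h.gz n).z4.mul (h.d 4 n ν f k)).add
  ((h.gz n).z5.mul (h.d 5 n ν f k))).congr fun j => (K j).B_ap _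
theorem R : Ls E fun j => (kk (K j) (p j)).R := fun n ν f k => ((h.d 1 n ν f k).sub
  ((h.gp n).h1.mul (h.d 0 n ν f k))).congr fun j => R_ap (h.bs j).j1 _
theorem L (a : Fin 4) : Ls E fun j => (K j).L a := fun n ν f k =>
  have o := (h.gz n).om a
  have r := Oq.hf.mul (h.gz n).ri
  (((((oq_e0 a).mul (h.d 0 n ν f k)).add (o.1.mul (h.d 1 n ν f k))).add
    ((r.mul o.2.1).mul (h.P n ν f k))).add ((r.mul o.2.2).mul (h.Q n ν f k))).congr
      fun j => (K j).L_ap a _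

theorem Om (a : Fin 3) : Ls E fun j => Om (K j) a := fun n ν f k => by
  obtain ⟨-, _, _, _, _, -, -⟩ := h.gz n
  have := h.d 2 n ν f k
  have := h.d 3 n ν f k
  have := h.d 4 n ν f k
  have := h.d 5 n ν f k
  fin_cases a <;> simp only [P354XR.Om, Fin.reduceFinMk, Matrix.cons_val, Derivation.smul_apply,
    Derivation.add_apply, Derivation.sub_apply, smul_eq_mul] <;> with_reducible repeat' first
      | assumption | exact Oq.ii | exact Oq.hf | apply Oq.mul | apply Oq.add | apply Oq.sub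

theorem lt (a : Fin 5) : Ls E fun j => lt (K j) (p j) a := by
  fin_cases a
  exacts [h.d 0, h.R, h.Om 0, h.Om 1, h.Om 2]

theorem ll (a : Fin 5) : Ls E fun j => ll (K j) (p j) a := by
  fin_cases a
  exacts [fun n ν f k => (h.gz n).z1.mul (h.d 0 n ν f k),
    fun n ν f k => (h.gz n).z1.mul (h.R n ν f k), h.Om 0, h.Om 1, h.Om 2]

theorem st : St E S S0 := by
  have a := fun j => geo_eq (h.bs j).geo
  have b := fun j => geo_eq ⟨_, h.s0 j⟩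
  refine ⟨fun j => ⟨(b j).1.trans (a j).1.symm, (b j).2.1.trans (a j).2.1.symm,
    (b j).2.2.1.trans (a j).2.2.1.symm, (b j).2.2.2.trans (a j).2.2.2.symm⟩, fun j => (h.bs j).hS,
    h.i0, fun i => ?_, ?_, ?_, ?_⟩ <;> simp only [a]
  exacts [h.L i, h.H, h.B, h.c]

theorem V {e1 e2 e3 e4 e5 e6 : ∀ j, Sm (on (O j))} (h1 : Oq E.X E.x n 1 e1)
    (h2 : Oq E.X E.x n 1 e2) (h3 : Oq E.X E.x n 1 e3) (h4 : Oq E.X E.x n 1 e4) (a : Fin 4) :
    Oq E.X E.x n 1 fun j =>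
      (K j).prj ((kk (K j) (p j)).V (e1 j) (e2 j) (e3 j) (e4 j) (e5 j) (e6 j)) a :=
  have o := (h.gz n).om a
  have j := h2.mul (h.gp n).j1
  (((((h1.sub (h2.mul (h.gp n).h1)).mul (oq_e0 a)).add (h2.mul o.1)).add
    ((h3.sub (j.mul (Oq.ii.mul (h.gz n).kc.2.1))).mul ((h.gz n).z1.mul o.2.2))).add
    ((h4.add (j.mul (Oq.ii.mul (h.gz n).kc.2.2.1))).mul ((h.gz n).z1.mul o.2.1))).congr
      fun j => by rw [kk_V, (h.bs j).is.prj_V]

theorem kz (n : ℕ) : (Oq E.X E.x n 1 fun j => (kk (K j) (p j)).z) ∧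
    Oq E.X E.x n 1 fun j => (kk (K j) (p j)).zb :=
  have a := (Oq.ii.mul (h.gp n).a).mul (h.gz n).kc.1
  ⟨(h.gp n).sg.mul ((h.gz n).z1.add a), (h.gp n).sg.mul ((h.gz n).z1.sub a)⟩

theorem frO (n : ℕ) : Cl E n (fun j => frO (K j) (p j)) fun j => frO (K j) (p j) :=
  have z := h.gz n
  have q := h.gp n
  have a := Oq.ii.mul q.a
  have r := z.z1.mul z.z1
  ⟨fun i => .refl (h.V .zero z.kc.2.2.2 .zero .zero i),
    fun i => .refl (h.V (((Oq.two.mul z.Ni).mul q.sg).mul (r.add (q.a.mul q.a)))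
      ((z.Ni.mul q.sg).mul ((r.sub ((Oq.two.mul q.M).mul z.z1)).add (q.a.mul q.a))).neg
      (((a.mul z.kc.2.1).mul z.Ni).mul q.sg) (((a.mul z.kc.2.2.1).mul z.Ni).mul q.sg).neg i),
    fun i => .refl (h.V ((a.mul z.kc.2.1).mul (h.kz n).2) .zero .zero (h.kz n).2 i),
    fun i => .refl (h.V ((a.mul z.kc.2.2.1).mul (h.kz n).1).neg .zero (h.kz n).1 .zero i)⟩

theorem f1 (hg : Mg E n S S0) :
    Cl E n (fun j => f1 (K j) (p j) (S j)) fun j => f1 (K j) (p j) (S0 j) :=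
  hg.g1 (F := fun j => pre (K j) (p j)) (G := fun j => pre (K j) (p j))
    ⟨(h.frO n).l, fun a => .refl (((Oq.two.mul (h.gz n).Ni).mul (oq_e0 a)).congr fun j =>
      congrArg (_ * ·) ((h.bs j).is.tco a).1), (h.frO n).m, (h.frO n).mb⟩

theorem mg (hg : ∀ a b, Oq E.X E.x n E.μ fun j => (S j).g a b - (S0 j).g a b) : Mg E n S S0 :=
  fun a b => .of h.one (by
    have e : ∀ j, (S0 j).g = gO (K j) (p j) := fun j => by
      obtain ⟨Γ, e⟩ := h.s0 j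
      rw [e]; rfl
    have z := h.gz n
    have q := h.gp n
    obtain ⟨_, _, _⟩ := z.c q a
    obtain ⟨_, _, _⟩ := z.c q b
    obtain ⟨_, _, _, -⟩ := z.kc
    have := (z.om a).1
    have := (z.om b).1
    have : Oq E.X E.x n 1 fun j => (K j).kc.r := z.z1
    obtain ⟨_, _, _, -⟩ := q
    simp only [e, gO, gBo, KC.qf, kk]
    with_reducible repeat' first
      | assumption | exact Oq.ii | exact Oq.hf | exact Oq.two | apply Oq.neg | apply Oq.mul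
      | apply Oq.add | apply Oq.sub) (hg a b)

end Ba

end Vale.Agent.P354F2
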