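import Vale.Agent.P354F2.Est

/-!
The comparison of the data of the frame along the rays with the data of Kerr.
-/

namespace Vale.Agent.P354F2

open Vale.Agent.P354XG Vale.Agent.P354XG.Geo Vale.Agent.P354XD Vale.Agent.P354XR Vale.Agent.P354Z
  Vale.Agent.P354XI Vale.Agent.P354YK
open Vale.Agent.P354BO (Oq Gz Gp oq_e0)

variable {J ι : Type} [Fintype ι] {O : J → Set E6} {E : Ev ι O} {n : ℕ}
  {K : ∀ j, Hp (Sm (on (O j)))} {p : ∀ j, Pm (Sm (on (O j)))} {S S0 : ∀ j, Geo (Sm (on (O j)))}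
  {s u k : ∀ j, Sm (on (O j))} {qd : ∀ j, Sm (on (O j)) → Sm (on (O j))}

/-- The products of m after the first step. -/
noncomputable def pr {A : Type} [CommRing A] [Algebra ℂ A] (K : Hp A) (p : Pm A) (S : Geo A) :
    Fin 3 → A :=
  ![S.dot (f1 K p S).m (f1 K p S).mb - 1, S.dot (f1 K p S).m (f1 K p S).m,
    S.dot (f1 K p S).mb (f1 K p S).mb]

theorem exc_alg {A : Type} [CommRing A] {N Ni t0 t2 t3 k0 k2 k3 l0 l1 m0 m1 : A} (n : N * Ni = 1)
    (e1 : N * t0 + l0 * (N * t2) + l1 * (N * t3) = 2)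
    (e2 : N * k0 + m0 * (N * k2) + m1 * (N * k3) = 2) : t0 - k0 = -((l0 - m0) * (t2 - k2 + k2) +
      (t2 - k2) * m0 + ((l1 - m1) * (t3 - k3 + k3) + (t3 - k3) * m1)) := by
  linear_combination Ni * (e1 - e2) - (t0 + l0 * t2 + l1 * t3 - k0 - m0 * k2 - m1 * k3) * n

/-- The roots and the quadratures. -/
structure Rt (E : Ev ι O) (K : ∀ j, Hp (Sm (on (O j)))) (p : ∀ j, Pm (Sm (on (O j))))
    (S : ∀ j, Geo (Sm (on (O j)))) (s u k : ∀ j, Sm (on (O j)))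
    (qd : ∀ j, Sm (on (O j)) → Sm (on (O j))) (n : ℕ) : Prop where
  e2 : ∀ j, (f1 (K j) (p j) (S j)).E2 (S j) (s j) (u j) (k j)
  pos : ∀ j, 0 ≤ rv (s j) (E.x j) ∧ 0 ≤ rv (k j) (E.x j)
  sm : ∀ j i, ‖fv (pr (K j) (p j) (S j) i) (E.x j)‖ ≤ 1 / 10
  q : ∀ j, Qd (K j) (p j) (qd j) P354RI.ex
  so : (Oq E.X E.x n E.μ fun j => so (K j) (p j) (S j) (u j) (k j)) →
    Oq E.X E.x n E.μ fun j => qd j (so (K j) (p j) (S j) (u j) (k j))
  sq : (Oq E.X E.x n E.μ fun j => sq (K j) (p j) (S j) (qd j) P354RI.ex (u j) (k j)) →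
    Oq E.X E.x n E.μ fun j => qd j (sq (K j) (p j) (S j) (qd j) P354RI.ex (u j) (k j))

namespace Ba
variable (h : Ba E K p S S0) (I : KID)
include h I

theorem kid (j : J) : (S0 j).dot (P354F2.f1 (K j) (p j) (S0 j)).m (P354F2.f1 (K j) (p j) (S0 j)).mb = 1 ∧
    (S0 j).dot (P354F2.f1 (K j) (p j) (S0 j)).m (P354F2.f1 (K j) (p j) (S0 j)).m = 0 ∧
    (S0 j).dot (P354F2.f1 (K j) (p j) (S0 j)).mb (P354F2.f1 (K j) (p j) (S0 j)).mb = 0 ∧
    fb (K j) (p j) (S0 j) (hf _) 1 = P354YK.frO (K j) (p j) ∧ so (K j) (p j) (S0 j) (hf _) 1 = 0 ∧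
    t0 (S0 j) (ul (K j) (p j)) (P354YK.frO (K j) (p j)).n (P354YK.frO (K j) (p j)).mb =
      (kk (K j) (p j)).ta2 ∧ (P354YK.frO (K j) (p j)).ghp (S0 j) = out (kk (K j) (p j)) ∧
    Og (K j) (p j) (S0 j) (P354YK.frO (K j) (p j)) ∧
    la (K j) (S0 j) (P354YK.frO (K j) (p j)).l 0 = ii _ * (p j).a * (K j).kc.sb ∧
    la (K j) (S0 j) (P354YK.frO (K j) (p j)).l 1 = -(ii _ * (p j).a * (K j).kc.s) ∧
    cm (K j) (p j) (out (kk (K j) (p j))).tp 2 = ii _ * (p j).a * (K j).kc.s * (K j).Ni * (p j).sg ∧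
    cm (K j) (p j) (out (kk (K j) (p j))).tp 3 =
      -(ii _ * (p j).a * (K j).kc.sb * (K j).Ni * (p j).sg) :=
  I _ _ _ _ (h.bs j).is (h.bs j).pis (h.bs j).j1 (h.s0 j) (h.i0 j)

theorem prs (hg : Mg E n S S0) (i : Fin 3) :
    Cg E n (fun j => pr (K j) (p j) (S j) i) fun _ => 0 := by
  have f := h.f1 hg
  fin_cases i
  exacts [((hg.dot f.m f.mb).sub .one).tw fun j => by rw [(h.kid I j).1, sub_self],
    (hg.dot f.m f.m).tw fun j => (h.kid I j).2.1, (hg.dot f.mb f.mb).tw fun j => (h.kid I j).2.2.1]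

variable {m : ℕ} (r : Rt E K p S s u k qd m)
include r

theorem uk (hg : Mg E n S S0) : Cg E n u (fun _ => hf _) ∧ Cg E n k fun _ => 1 := by
  set q := fun j => (S j).dot (P354F2.f1 (K j) (p j) (S j)).m (P354F2.f1 (K j) (p j) (S j)).mb
  have a : Cg E n q fun _ => 1 :=
    (((h.prs I hg 0).add .one).fr fun j => (sub_add_cancel _ _).symm).tw fun _ => zero_add _
  have v : ∀ j, 1 / 2 ≤ ‖fv (s j) (E.x j)‖ ∧ 1 / 2 ≤ ‖fv (q j + s j) (E.x j)‖ ∧
      1 / 2 ≤ ‖fv (2 * (s j * s j)) (E.x j)‖ ∧ 1 / 2 ≤ ‖fv (k j) (E.x j)‖ := fun j => by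
    set φ := evO ⟨E.x j, h.mem j⟩
    have y : ‖φ (q j - 1)‖ ≤ 1 / 10 := r.sm j 0
    have e1 := congrArg φ (r.e2 j).sq
    have e2 := congrArg φ (r.e2 j).hk
    simp only [map_sub, map_mul, map_pow, map_add, map_ofNat, map_one] at y e1 e2
    have := roots y (r.sm j 1) (r.sm j 2) e1 e2 (r.pos j).1
    rw [← map_add, ← map_mul, ← map_ofNat φ 2, ← map_mul] at this
    exact this
  have c : (0 : ℝ) < 1 / 2 := one_half_pos
  have t := fun j => two_hf (A := Sm (on (O j)))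
  have b : Cg E n s fun _ => 1 := .root h.one h.mem c (fun j => (v j).1) (fun j => (r.pos j).1)
    ((((a.mul a).sub ((h.prs I hg 1).mul (h.prs I hg 2))).fr fun j => by
      rw [← pow_two, ← pow_two]; exact (r.e2 j).sq).tw fun _ => by ring)
  refine ⟨.of h.one .hf (Oq.div c (fun j => (v j).2.1) (a.a.add b.a) n le_rfl
    ((Oq.hf.mul (a.d.add b.d)).neg.congr fun j => by linear_combination (r.e2 j).hu - t j)),
    .root h.one h.mem c (fun j => (v j).2.2.2) (fun j => (r.pos j).2) (.of h.one .one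
      (Oq.div c (fun j => (v j).2.2.1) (Oq.two.mul (b.a.mul b.a)) n le_rfl
        (((a.d.add b.d).sub (Oq.two.mul (b.mul b).d)).congr fun j => by
          linear_combination (r.e2 j).hk)))⟩

theorem cfb (hg : Mg E n S S0) : Cl E n (fun j => fb (K j) (p j) (S j) (u j) (k j))
    fun j => fb (K j) (p j) (S0 j) (hf _) 1 :=
  have f := h.f1 hg
  have a := h.uk I r hg
  have z := h.gz n
  h.st.rot (F := fun j => { (P354F2.f1 (K j) (p j) (S j)).g2 (S j) (u j) (k j) with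
      l := (P354YK.frO (K j) (p j)).l }) (G := fun j =>
      { (P354F2.f1 (K j) (p j) (S0 j)).g2 (S0 j) (hf _) 1 with l := (P354YK.frO (K j) (p j)).l })
    ⟨(h.frO n).l, f.n, .smul a.2 (f.m.add (.smul ((hg.dot f.m f.m).mul a.1).neg f.mb)),
      .smul a.2 (f.mb.add (.smul ((hg.dot f.mb f.mb).mul a.1).neg f.m))⟩
    (.refl (z.Ni.mul (((Oq.ii.mul (h.gp n).a).mul z.kc.2.2.1).mul (h.kz n).1)).neg)

end Ba

namespace Ba
variable (h : Ba E K p S S0) (I : KID) (r : Rt E K p S s u k qd (n + 1)) (hg : Mg E (n + 2) S S0)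
include h I r hg

theorem cfr : Mc E (n + 1) S S0 ∧ Cl E (n + 1)
    (fun j => fr2 (K j) (p j) (S j) (qd j) P354RI.ex (u j) (k j)) fun j => P354YK.frO (K j) (p j) := by
  have t := h.st
  have b := h.cfb I r hg
  have b' := b.tw fun j => (h.kid I j).2.2.2.1
  have g1 := hg.le (n + 1).le_succ
  have c : Mc E (n + 1) S S0 := t.gam hg (fun j => ((h.bs j).fb_wn (r.e2 j)).nl)
    (fun j => (h.kid I j).2.2.2.2.2.2.2.1.wn.nl) (b'.le (n + 1).le_succ)
  have w : Co E (n + 1) (fun j => ul (K j) (p j)) fun j => ul (K j) (p j) :=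
    ⟨(h.frO _).l, .zero, .zero⟩
  have z := h.gz (n + 1)
  have o := ((Cg.refl z.Ni).mul (g1.dot (t.nab c w b.m) (b.mb.le (n + 1).le_succ))).small
    fun j => (h.kid I j).2.2.2.2.1
  have e : Cg E (n + 1) (fun j => fe (K j) (p j) (S j) (qd j) P354RI.ex (u j) (k j)) fun _ => 1 :=
    .ex h.one h.mem h.ex _ (r.so o).neg
  have y := ((Cg.refl z.Ni).mul (((t.cc e).mul (g1.dot (t.nab c w b'.n)
    (b'.mb.le (n + 1).le_succ)).neg).sub (.refl ((((Oq.ii.mul (h.gp _).a).mul (h.kz _).1).mul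
      (h.kz _).1).mul z.kc.2.2.1).neg))).small fun j => by
        rw [map_one, one_mul]
        exact (congrArg (_ * ·) (sub_eq_zero.2 (h.kid I j).2.2.2.2.2.1)).trans (mul_zero _)
  refine ⟨c, (t.rot (t.spn (b'.le (n + 1).le_succ) e) (.of (g := fun _ => 0) h.one .zero
    ((r.sq y).congr fun _ => sub_zero _))).tw fun j => ?_⟩
  simp [rot, spn, rn]

theorem dat (i : (Fin 4 × Fin 6) ⊕ Fin 13) : Cg E n
    (fun j => dat (K j) (p j) ((fr2 (K j) (p j) (S j) (qd j) P354RI.ex (u j) (k j)).ghp (S j)) i)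
    fun j => dat (K j) (p j) (out (kk (K j) (p j))) i := by
  obtain ⟨c, b⟩ := h.cfr I r hg
  have t := h.st
  have g0 := hg.le (n.le_add_right 2)
  refine Cg.tw (g := fun j => P354Z.dat (K j) (p j) ((P354YK.frO (K j) (p j)).ghp (S0 j)) i) ?_
    fun j => by rw [(h.kid I j).2.2.2.2.2.2.1]
  rcases i with ⟨i, a⟩ | i
  swap
  · exact t.sc g0 c b i
  have o := fun j => ((h.bs j).fr2_ok (r.q j) (r.e2 j)).1.prj4
  have o0 := fun j => (h.kid I j).2.2.2.2.2.2.2.1.prj4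
  have b0 := b.le n.le_succ
  have e : ∀ j (D : Der (Sm (on (O j)))), D ((K j).z 0) = (K j).prj D 0 := fun j D =>
    congrArg D (by simp [Hp.co, Hp.e0, Hp.om])
  have z := h.gz (n + 1)
  have d1 := t.f4 g0 c b i (.refl z.z1)
  have d2 := t.f4 g0 c b i (.refl z.z2)
  have d3 := t.f4 g0 c b i (.refl z.z3)
  have d4 := t.f4 g0 c b i (.refl z.z4)
  have d5 := t.f4 g0 c b i (.refl z.z5)
  have d0 : Cg E n (fun j => f4 ((fr2 (K j) (p j) (S j) (qd j) P354RI.ex (u j) (k j)).ghp (S j)) i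
      ((K j).z 0)) fun j => f4 ((P354YK.frO (K j) (p j)).ghp (S0 j)) i ((K j).z 0) := by
    simp only [e]
    fin_cases i <;> simp only [f4, Fin.reduceFinMk, Matrix.cons_val, o, o0]
    exacts [b0.l 0, b0.n 0, b0.m 0, b0.mb 0]
  have y := h.gz n
  have z2 := Cg.refl y.z2
  have z3 := Cg.refl y.z3
  have z4 := Cg.refl y.z4
  have z5 := Cg.refl y.z5
  have N := Cg.refl y.Ni
  have j := d1.mul (.refl (h.gp n).j1)
  fin_cases a
  exacts [d0.add (d1.mul (.refl (h.gp n).h1)), d1,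
    (N.mul ((z2.mul d3).sub (z3.mul d2))).add (j.mul (.refl (Oq.ii.mul y.kc.2.1))),
    (N.mul ((z4.mul d5).sub (z5.mul d4))).sub (j.mul (.refl (Oq.ii.mul y.kc.2.2.1))),
    (N.mul ((z4.mul d2).add (z5.mul d3))).sub (j.mul (.refl (Oq.ii.mul y.kc.1))),
    (N.mul ((z2.mul d4).add (z3.mul d5))).add (j.mul (.refl (Oq.ii.mul y.kc.1)))]

/-- The components along T of l and of n. -/
theorem exc {ν : J → ℝ} (a : Oq E.X E.x n ν fun j => (p j).a) (e : ∀ j, E.μ j ^ 2 ≤ ν j ^ 2)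
    (i : Fin 4) (hi : i < 2) : Oq E.X E.x n (E.μ * ν) fun j =>
      P354Z.dat (K j) (p j) ((fr2 (K j) (p j) (S j) (qd j) P354RI.ex (u j) (k j)).ghp (S j)) (.inl (i, 0)) -
      P354Z.dat (K j) (p j) (out (kk (K j) (p j))) (.inl (i, 0)) := by
  have o := fun j => ((h.bs j).fr2_ok (r.q j) (r.e2 j)).1
  obtain rfl | rfl : i = 0 ∨ i = 1 := by omega
  · refine Oq.zero.congr fun j => sub_eq_zero.2 ?_
    show cm _ _ (Fr.ghp _ _).th 0 = cm _ _ (oth _) 0
    rw [(o j).th]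
  have g0 := hg.le (n.le_add_right 2)
  have y := h.gz n
  have N := Cg.refl (Oq.two.mul y.Ni)
  have l0 := (N.mul (g0.dot (h.frO n).l (Y := fun j => (K j).prj (K j).P) fun a =>
    .refl ((y.z1.mul (y.om a).2.2).congr fun j => ((h.bs j).is.tco a).2.2.1))).neg.d
  have l1 := (N.mul (g0.dot (h.frO n).l (Y := fun j => (K j).prj (K j).Q) fun a =>
    .refl ((y.z1.mul (y.om a).2.1).congr fun j => ((h.bs j).is.tco a).2.2.2.1))).neg.d
  have d2 := (h.dat I r hg (.inl (1, 2))).d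
  have d3 := (h.dat I r hg (.inl (1, 3))).d
  have a1 := (Oq.ii.mul a).mull y.kc.2.1
  have a2 := (Oq.ii.mul a).mull y.kc.2.2.1
  have q := fun j => (h.kid I j).2.2.2.2.2.2
  have m0 := a2.congr fun j => (q j).2.2.1
  have m1 := a1.neg.congr fun j => (q j).2.2.2.1
  have k2 := ((a1.mull y.Ni).mull (h.gp n).sg).congr fun j => (q j).2.2.2.2.1
  have k3 := ((a2.mull y.Ni).mull (h.gp n).sg).neg.congr fun j => (q j).2.2.2.2.2
  refine (((l0.mul' ((d2.wt e).add k2)).add (d2.mul' m0)).add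
    ((l1.mul' ((d3.wt e).add k3)).add (d3.mul' m1))).neg.congr fun j => ?_
  have e2 := (q j).2.1.la_n
  rw [(q j).1] at e2
  exact exc_alg (h.bs j).is.hN (o j).la_n e2

end Ba

end Vale.Agent.P354F2
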