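import Vale.Agent.P354F2.Defs
import Vale.Agent.P354F2.Alg
import Vale.Agent.P354BO.Gen
import Vale.Agent.P354RI.Defs
import Vale.Agent.P354CQ.Shr

/-!
The parts of FTWO. Exact statements.
-/

open scoped ContDiff
open Set Filter Topology

noncomputable section

namespace Vale.Agent.P354F2

open Vale.Agent.P354n (R4)
open Vale.Agent.P354XG Vale.Agent.P354XD Vale.Agent.P354XR Vale.Agent.P354XI Vale.Agent.P354Z
open Vale.Agent.P354XE (Tw gin)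
open Vale.Agent.P354YO (sh IsTh)
open Vale.Agent.P354YK (gO)
open Vale.Agent.P354BO (Oq Gz Gp)
open Vale.Agent.P354CQ (Su D2 Dv ac)

/-- CORE: the region, and the segments. -/
def CORE : Prop :=
  (∀ (M R : ℝ) (O : Set E6), 0 < R → Cone O → Cone (core M R O) ∧ core M R O ⊆ O ∧
    ∀ x ∈ core M R O, Seg M R x ⊆ core M R O) ∧
  (∀ c n Lv a α, Su c n Lv a α → ∀ x ∈ P354XO.Om (D2 c (Dv n.r1 n.τ Lv)),
    Est.Fa c (ac c a α x) →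
    ac c a α x ∈ core c.M (c.R1 + 3) (ac c a α '' P354XO.Om (D2 c (Dv n.r1 n.τ Lv)))) ∧
  ∀ (M R : ℝ) (x y : E6), 0 < R → R ≤ x.2.1 → 0 ≤ uu M x + x.2.1 → y ∈ Seg M R x →
    x ∈ Seg M R x ∧ Seg M R y ⊆ Seg M R x ∧ uu M y = uu M x ∧ y.2.2 = x.2.2 ∧ R ≤ y.2.1 ∧
    y.2.1 ≤ x.2.1 ∧ -(1 / 4) ≤ uu M y + y.2.1 ∧ (uu M x ≤ -R - 1 / 4 → 0 ≤ uu M y + y.2.1) ∧
    x.1 - 4 * M ^ 2 / R ≤ y.1 ∧ y.1 ≤ x.1

/-- SIG: the roots for the normalisation of m. -/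
def SIG : Prop := ∀ (M0 R M a : ℝ) O g, Pre M0 R O g → ∃ s u k : Sm (on O),
  (f1 (hp _) (pO O M0 M a) (ge O g)).E2 (ge O g) s u k ∧ ∀ x ∈ O, 0 ≤ rv s x ∧ 0 ≤ rv k x

section alg
variable {A : Type} [CommRing A] [Algebra ℂ A]

/-- The chart and the parameters in the scale c; ci is the inverse of c. -/
def sK (K : Hp A) (c ci : A) : Hp A where
  c := K.c
  d := ![c • K.d 0, c • K.d 1, K.d 2, K.d 3, K.d 4, K.d 5]
  z := ![ci * K.z 0, ci * K.z 1, K.z 2, K.z 3, K.z 4, K.z 5]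
  ri := c * K.ri
  Ni := K.Ni

def sP (p : Pm A) (c ci : A) : Pm A := ⟨ci * p.a, ci * p.M, c * c * p.sg, p.h1, c * p.j1⟩

end alg

/-- The real letters, the chart and the parameters in the scale c. -/
def lx (O : Set E6) (M c : ℝ) : Fin 6 → Der (Sm (on O)) :=
  ![Ibp.rl (Sm (on O)) c • (hp (on O)).d 0, Ibp.rl (Sm (on O)) c • RO O M,
    pd (v1 2), pd (v2 2), pd (v1 3), pd (v2 3)]
def hS (O : Set E6) (c : ℝ) : Hp (Sm (on O)) := sK (hp _) (Ibp.rl _ c) (Ibp.rl _ c⁻¹)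
def pS (O : Set E6) (M0 M a c : ℝ) : Pm (Sm (on O)) :=
  sP (pO O M0 M a) (Ibp.rl _ c) (Ibp.rl _ c⁻¹)

section fam
variable (M R κ : ℝ) {I : Type} (O P : I → Set E6) (l : I → ℝ)

/-- A family of cones O, of unions of segments P, and of scales l. -/
structure Fm : Prop where
  co : ∀ i, Cone (O i)
  star : ∀ i, ∀ x ∈ O i, Seg M R x ⊆ O i
  sub : ∀ i, P i ⊆ O i
  seg : ∀ i, ∀ x ∈ P i, Seg M R x ⊆ P i
  an : ∀ i, ∀ x ∈ P i, An x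
  one : ∀ i, 1 ≤ l i
  rr : ∀ i, ∀ x ∈ P i, l i ≤ κ * x.2.1 ∧ x.2.1 ≤ κ * l i
  flat : ∀ i, l i = 1 ∨ ∀ x ∈ P i, uu M x ≤ -R - 1 / 2

/-- The letters and the points of the family. -/
abbrev lX (j : Σ i, P i) : Fin 6 → Der (Sm (on (O j.1))) := lx (O j.1) M (l j.1)
abbrev pX (j : Σ i, P i) : E6 := j.2.1

/-- Bounds at all points of P. -/
abbrev Os (n : ℕ) (μ : I → ℝ) (f : ∀ i, Sm (on (O i))) : Prop :=
  Oq (lX M O P l) (pX P) n (fun j => μ j.1) fun j => f j.1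

end fam

/-- QD: the quadrature along the rays from the anchor. -/
def QD : Prop := ∀ M R : ℝ, 0 < R → ∃ qd : ∀ O : Set E6, Sm (on O) → Sm (on O),
  (∀ O M' a, Cone O → (∀ x ∈ O, Seg M R x ⊆ O) → Qd (hp _) (pO O M M' a) (qd O) P354RI.ex) ∧
  ∀ (κ : ℝ) (I : Type) (O P : I → Set E6) (l : I → ℝ), Fm M R κ O P l → ∀ n μ f,
    Os M O P l n μ f → Os M O P l n μ fun i => Ibp.rl _ (l i)⁻¹ * qd (O i) (f i)

/-- The jets of h at p in the scale c. -/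
def Jw (n : ℕ) (c : ℝ) (h : Tw) (p : R4) (μ : ℝ) : Prop :=
  ∀ k ≤ n, ∀ v w : R4, ‖iteratedFDeriv ℝ k (fun x => h x v w) p‖ ≤ μ / c ^ k * (‖v‖ * ‖w‖)

/-- KB: Kerr in the chart, the generators, the letters, and the metric. -/
def KB : Prop :=
  (∀ (M0 M a : ℝ) A B O, 0 < M0 → |a| < M → M ≤ 5 / 4 * M0 → Cone O → (∀ x ∈ O, 7 * M0 ≤ x.2.1) →
    IsTh M0 M a A B → (∀ x ∈ O, VacAt (P354XE.pb (sh A B) (gin M a)) (pj x)) ∧
      (ge O (P354XE.pb (sh A B) (gin M a))).g = gO (hp _) (pO O M0 M a)) ∧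
  ∀ (M0 R κ : ℝ) (I : Type) (O P : I → Set E6) (l : I → ℝ), Fm M0 R κ O P l →
    (∀ (M a : I → ℝ) (B : ℝ) n, (∀ i, |M i| ≤ B ∧ |a i| ≤ B) →
      Gz (lX M0 O P l) (pX P) n (fun j => hS (O j.1) (l j.1)) ∧
      Gp (lX M0 O P l) (pX P) n fun j => pS (O j.1) M0 (M j.1) (a j.1) (l j.1)) ∧
    (∀ k, ∃ c : Fin 6 → ∀ i, Sm (on (O i)), (∀ b n, Os M0 O P l n 1 (c b)) ∧
      ∀ i f, (hS (O i) (l i)).d k f = ∑ b, c b i * lx (O i) M0 (l i) b f) ∧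
    (∀ n μ f, Os M0 O P l n μ f → Os M0 O P l n μ fun i => cj (f i)) ∧
    ∀ (g h : I → Tw) n μ, (∀ i, ∀ x ∈ O i, VacAt (g i) (pj x) ∧ VacAt (h i) (pj x)) →
      (∀ i, ∀ x ∈ P i, Jw n (l i) (g i - h i) (pj x) (μ i)) → ∀ a b,
      Os M0 O P l n μ fun i => (ge (O i) (g i)).g a b - (ge (O i) (h i)).g a b

end Vale.Agent.P354F2
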