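import Vale.Agent.P354F2.Parts

/-!
The change of the scale.
-/

namespace Vale.Agent.P354F2

open Vale.Agent.P354XG Vale.Agent.P354XG.Geo Vale.Agent.P354XD Vale.Agent.P354XR Vale.Agent.P354Z
  Vale.Agent.P354YK

variable {A : Type} [CommRing A] [Algebra ℂ A]

/-- The geometry in the scale c. -/
noncomputable def sG (S : Geo A) (c : A) : Geo A :=
  { S with
    L := fun a => c • S.L a
    Γ := fun a b d => c * S.Γ a b d
    v := fun a b => c * c * S.v a b
    vb := fun a b => c * c * S.vb a b }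

/-- A real constant and its inverse. -/
structure Cn (σ : A →+* A) (c ci : A) : Prop where
  d : ∀ D : Der A, D c = 0
  re : σ c = c
  inv : c * ci = 1

variable {K : Hp A} {p : Pm A} {S : Geo A} {c ci : A} {F : Fr A} {σ : A →+* A}

theorem sG_dot (X Y : Vec A) : (sG S c).dot X Y = S.dot X Y := rfl
theorem sG_L (a : Fin 4) (f : A) : (sG S c).L a f = c * S.L a f := rfl

theorem sG_act (X : Vec A) (a b f : A) :
    (sG S c).act ⟨X, c * a, c * b⟩ f = c * S.act ⟨X, a, b⟩ f := by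
  simp only [act_apply, sG_L, Fin.sum_univ_four]
  simp only [sG]
  ring

theorem sG_nab (X : Vec A) (a b : A) (Z : Vec A) :
    (sG S c).nab ⟨X, c * a, c * b⟩ Z = c • S.nab ⟨X, a, b⟩ Z := funext fun d => by
  simp only [nab, dv, Pi.add_apply, Pi.smul_apply, sG_act, Gm, Fin.sum_univ_four, smul_eq_mul]
  simp only [sG]
  ring

theorem sG_nab0 (X Z : Vec A) : (sG S c).nab ⟨X, 0, 0⟩ Z = c • S.nab ⟨X, 0, 0⟩ Z := by
  simpa using sG_nab (S := S) (c := c) X 0 0 Z

theorem sG_hat (l n m mb X : Vec A) : hat (sG S c) l n m mb X =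
    ⟨X, c * (hat S l n m mb X).a, c * (hat S l n m mb X).b⟩ := by
  simp only [hat, sG_nab0, sG_dot, dot_smul_left, Op.mk.injEq, true_and]
  constructor <;> ring

namespace Cn
variable (h : Cn σ c ci)
include h

theorem di (D : Der A) : D ci = 0 := Fr.d_inv D h.inv (h.d D)
theorem ri : σ ci = ci := by
  have := congrArg σ h.inv
  rw [map_mul, map_one, h.re] at this
  linear_combination ci * this - σ ci * h.inv

theorem R (a b d e : Fin 4) : (sG S c).R a b d e = c * c * S.R a b d e := by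
  simp only [Geo.R, sG_L, Fin.sum_univ_four]
  simp only [sG, D_mul, h.d]
  ring

theorem W (X Y Z U : Vec A) : (sG S c).W X Y Z U = c * c * S.W X Y Z U := by
  have : (sG S c).Rm X Y Z = (c * c) • S.Rm X Y Z := funext fun d => by
    simp only [Rm, h.R, Pi.smul_apply, smul_eq_mul, Finset.mul_sum, mul_assoc]
  rw [Geo.W, this, sG_dot, dot_smul_left, Geo.W]

omit h in
theorem f4 (b : Fin 4) (f : A) : f4 (F.ghp (sG S c)) b f = c * f4 (F.ghp S) b f := by
  fin_cases b <;> simp only [P354Z.f4, Fr.ghp, ghp, mk', sG_hat, Fin.reduceFinMk, Matrix.cons_val,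
    sG_act] <;> rfl

theorem sc (i : Fin 13) :
    sc (F.ghp (sG S c)) i = c ^ (if i < 8 then 1 else 2) * sc (F.ghp S) i := by
  fin_cases i <;> simp only [P354Z.sc, Fr.ghp, ghp, mk', sG_hat, Fin.reduceFinMk, Matrix.cons_val,
    sG_nab, sG_dot, dot_smul_left, h.W] <;> simp [hat, pow_two]

end Cn

theorem Cn.is (h : Cn S.c c ci) (s : S.Is) : (sG S c).Is where
  cc := s.cc
  calg := s.calg
  c_L a f := (map_mul S.c c (S.L a f)).trans (by rw [h.re, s.c_L]; rfl)
  c_H := s.c_H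
  c_g := s.c_g
  c_Γ a b d := (map_mul S.c _ _).trans (by rw [h.re, s.c_Γ]; rfl)
  LL a b f := by
    simp only [sG_L, D_mul, h.d, s.LL a b f]
    simp only [sG]
    ring
  HL a f := (D_mul S.H c (S.L a f)).trans (by rw [h.d, s.HL, mul_zero, add_zero]; rfl)
  HHb := s.HHb
  H_g := s.H_g
  H_Γ a b d := (D_mul S.H _ _).trans (by rw [h.d, s.H_Γ, mul_zero, mul_zero, add_zero])
  g_symm := s.g_symm
  Γ_symm a b d := congrArg (c * ·) (s.Γ_symm a b d)
  compat a b d := by
    have := s.compat a b d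
    simp only [sG_L, Fin.sum_univ_four] at this ⊢
    simp only [sG]
    linear_combination c * this
  ric b d := by simp only [h.R, ← Finset.mul_sum, s.ric, mul_zero]

theorem sK_L (a : Fin 4) (f : A) : (sK K c ci).L a f = c * K.L a f := by
  rw [Hp.L_ap, Hp.L_ap]
  show _ * (c * K.d 0 f) + K.om a * (c * K.d 1 f) + _ * (c * _) * K.mu a * K.P f +
    _ * (c * _) * K.mub a * K.Q f = _
  ring

theorem sK_geo (g : Fin 4 → Fin 4 → A) (Γ : Fin 4 → Fin 4 → Fin 4 → A) :
    (sK K c ci).geo g (fun a b d => c * Γ a b d) = sG (K.geo g Γ) c := by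
  have v : ∀ a b, (sK K c ci).v a b = c * c * K.v a b := fun a b => by
    show (_ * (c * _)) ^ 2 * (K.mu a * K.mub b - K.mub a * K.mu b) = _
    rw [Hp.v]; ring
  simp only [Hp.geo, sG, Geo.mk.injEq, true_and]
  exact ⟨rfl, funext fun a => Derivation.ext (sK_L a), rfl, rfl, funext₂ v,
    funext₂ fun a b => by rw [v, mul_neg]⟩

theorem sK_co (a : Fin 4) : (sK K c ci).co a = ci * K.co a := by
  show ci * _ * _ + ci * _ * K.om a = _
  rw [Hp.co]; ring

theorem sK_R (f : A) : (kk (sK K c ci) (sP p c ci)).R f = c * (kk K p).R f := by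
  have e : (sK K c ci).kc.F2 f = K.kc.F2 f := by
    simp only [KC.F2, KC.V_ap, zero_mul]; rfl
  rw [kk_R, kk_R, e]
  show c * K.kc.R f - p.h1 * (c * K.kc.T f) - c * p.j1 * _ = _
  ring

theorem sK_V (e1 e2 e3 e4 e5 e6 f : A) : (kk (sK K c ci) (sP p c ci)).V e1 e2 (c * e3) (c * e4)
    (c * e5) (c * e6) f = c * (kk K p).V e1 e2 e3 e4 e5 e6 f := by
  rw [KC.V_ap, KC.V_ap, sK_R]
  show e1 * (c * (kk K p).T f) + _ + _ * (kk K p).P f + _ * (kk K p).Q f + _ * (kk K p).H f +
    _ * (kk K p).B f = _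
  ring

namespace Cn
variable (h : Cn K.c c ci)
include h

theorem hp (k : K.Is) : (sK K c ci).Is where
  cc := k.cc
  calg := k.calg
  c0 f := (map_mul K.c c (K.d 0 f)).trans (by rw [h.re, k.c0]; rfl)
  c1 f := (map_mul K.c c (K.d 1 f)).trans (by rw [h.re, k.c1]; rfl)
  c2 := k.c2
  c3 := k.c3
  z0 := (map_mul K.c _ _).trans (by rw [h.ri, k.z0]; rfl)
  z1 := (map_mul K.c _ _).trans (by rw [h.ri, k.z1]; rfl)
  z2 := k.z2
  z3 := k.z3
  comm i j f := by
    fin_cases i <;> fin_cases j <;> simp [sK, h.d] <;> rw [k.comm]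
  dz i j := by
    fin_cases i <;> fin_cases j <;> simp [sK, h.di, k.dz, mul_comm ci c, h.inv]
  hr := by
    show ci * K.z 1 * (c * K.ri) = 1
    linear_combination K.z 1 * K.ri * h.inv + k.hr
  hN := k.hN

theorem pm (q : p.Is K) : (sP p c ci).Is (sK K c ci) where
  ca := (map_mul K.c _ _).trans (by rw [h.ri, q.ca]; rfl)
  cM := (map_mul K.c _ _).trans (by rw [h.ri, q.cM]; rfl)
  ch := q.ch
  cj := (map_mul K.c _ _).trans (by rw [h.re, q.cj]; rfl)
  da i := by fin_cases i <;> simp [sK, sP, h.di, q.da]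
  dM i := by fin_cases i <;> simp [sK, sP, h.di, q.dM]
  dh i hi := by fin_cases i <;> simp [sK, sP, q.dh] at hi ⊢
  dj i hi := by fin_cases i <;> simp [sK, sP, h.d, q.dj] at hi ⊢
  hg := by
    show c * c * p.sg * (ci * K.z 1 * (ci * K.z 1) + ci * p.a * (ci * p.a) * K.kc.x * K.kc.x) = 1
    linear_combination q.hg + (1 + c * ci) * p.sg *
      (K.z 1 * K.z 1 + p.a * p.a * K.kc.x * K.kc.x) * h.inv

theorem prj {D D' : Der A} (e : ∀ f, D' f = c * D f) : (sK K c ci).prj D' = K.prj D :=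
  funext fun a => by
    simp only [Hp.prj, dv, e, sK_co, D_mul, h.di]
    linear_combination D (K.co a) * h.inv

theorem cm {D D' : Der A} (e : ∀ f, D' f = c * D f) (i : Fin 6) :
    cm (sK K c ci) (sP p c ci) D' i = c ^ (if i < 2 then 0 else 1) * cm K p D i := by
  have x : (sK K c ci).kc.x = K.kc.x := rfl
  have s : (sK K c ci).kc.s = K.kc.s := rfl
  have b : (sK K c ci).kc.sb = K.kc.sb := rfl
  fin_cases i <;> simp only [P354Z.cm, e, x, s, b] <;> simp [sK, sP, h.di]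
  · linear_combination (D (K.z 0) + D (K.z 1) * p.h1) * h.inv
  · linear_combination D (K.z 1) * h.inv
  · linear_combination c * D (K.z 1) * p.j1 * (ii A * K.kc.s) * h.inv
  · linear_combination -c * D (K.z 1) * p.j1 * (ii A * K.kc.sb) * h.inv
  · linear_combination -c * D (K.z 1) * p.j1 * (ii A * K.kc.x) * h.inv
  · linear_combination c * D (K.z 1) * p.j1 * (ii A * K.kc.x) * h.inv

/-- The weights of the data. -/
def wt : (Fin 4 × Fin 6) ⊕ Fin 13 → ℕ :=
  Sum.elim (fun i => if i.2 < 2 then 0 else 1) fun i => if i < 8 then 1 else 2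

theorem dat (i : (Fin 4 × Fin 6) ⊕ Fin 13) :
    dat (sK K c ci) (sP p c ci) (F.ghp (sG S c)) i = c ^ wt i * dat K p (F.ghp S) i := by
  rcases i with i | i
  exacts [h.cm (f4 i.1) i.2, h.sc i]

theorem kc : (kk (sK K c ci) (sP p c ci)).z = c * (kk K p).z ∧
    (kk (sK K c ci) (sP p c ci)).zb = c * (kk K p).zb ∧
    (kk (sK K c ci) (sP p c ci)).De = ci * ci * (kk K p).De ∧
    (kk (sK K c ci) (sP p c ci)).W = ci * ci * (kk K p).W ∧
    (kk (sK K c ci) (sP p c ci)).ta2 = c * (kk K p).ta2 := by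
  have z : (kk (sK K c ci) (sP p c ci)).z = c * (kk K p).z := by
    show c * c * p.sg * (ci * K.z 1 + ii A * (ci * p.a) * K.kc.x) =
      c * (p.sg * (K.z 1 + ii A * p.a * K.kc.x))
    linear_combination c * p.sg * (K.z 1 + ii A * p.a * K.kc.x) * h.inv
  refine ⟨z, ?_, ?_, ?_, ?_⟩
  · show c * c * p.sg * (ci * K.z 1 - ii A * (ci * p.a) * K.kc.x) =
      c * (p.sg * (K.z 1 - ii A * p.a * K.kc.x))
    linear_combination c * p.sg * (K.z 1 - ii A * p.a * K.kc.x) * h.inv
  · show ci * K.z 1 * (ci * K.z 1) - 2 * (ci * p.M) * (ci * K.z 1) + ci * p.a * (ci * p.a) =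
      ci * ci * (K.z 1 * K.z 1 - 2 * p.M * K.z 1 + p.a * p.a)
    ring
  · show ci * K.z 1 * (ci * K.z 1) + ci * p.a * (ci * p.a) = ci * ci * (K.z 1 * K.z 1 + p.a * p.a)
    ring
  · rw [KC.ta2, z]
    show -(ii A * (ci * p.a) * _ * _ * K.kc.sb) =
      c * -(ii A * p.a * (kk K p).z * (kk K p).z * K.kc.sb)
    linear_combination -c * (ii A * p.a * (kk K p).z * (kk K p).z * K.kc.sb) * h.inv

theorem prj_V (k : K.Is) {e1 e2 e3 e4 e5 e6 f1 f2 f3 f4 f5 f6 : A} (a1 : f1 = e1) (a2 : f2 = e2)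
    (a3 : f3 = c * e3) (a4 : f4 = c * e4) :
    (sK K c ci).prj ((kk (sK K c ci) (sP p c ci)).V f1 f2 f3 f4 f5 f6) =
      K.prj ((kk K p).V e1 e2 e3 e4 e5 e6) := by
  have t : ∀ {K : Hp A} {p : Pm A}, K.Is → ∀ e1 e2 e3 e4 e5 e6 e7 e8,
      K.prj ((kk K p).V e1 e2 e3 e4 e5 e6) = K.prj ((kk K p).V e1 e2 e3 e4 e7 e8) :=
    fun k _ _ _ _ _ _ _ _ => funext fun a => by
    rw [kk_V, kk_V, k.prj_V, k.prj_V]
  rw [a1, a2, a3, a4, t (h.hp k) _ _ _ _ _ _ (c * e5) (c * e6)]
  exact h.prj (sK_V _ _ _ _ _ _)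

theorem frO (k : K.Is) : frO (sK K c ci) (sP p c ci) = frO K p := by
  obtain ⟨z, zb, de, w, -⟩ := h.kc (p := p)
  have a : (kk (sK K c ci) (sP p c ci)).a = ci * (kk K p).a := rfl
  have g : (kk (sK K c ci) (sP p c ci)).sg = c * c * (kk K p).sg := rfl
  have n : (kk (sK K c ci) (sP p c ci)).Ni = (kk K p).Ni := rfl
  have s : (kk (sK K c ci) (sP p c ci)).s = (kk K p).s := rfl
  have b : (kk (sK K c ci) (sP p c ci)).sb = (kk K p).sb := rfl
  have i := h.inv
  simp only [P354YK.frO, Fr.mk.injEq]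
  refine ⟨h.prj_V k rfl rfl (mul_zero _).symm (mul_zero _).symm, h.prj_V k ?_ ?_ ?_ ?_,
    h.prj_V k ?_ rfl (mul_zero _).symm zb, h.prj_V k ?_ rfl z (mul_zero _).symm⟩ <;>
    simp only [z, zb, de, w, a, g, n, s, b]
  · linear_combination 2 * (kk K p).Ni * (kk K p).sg * (kk K p).W * (1 + c * ci) * i
  · linear_combination -((kk K p).Ni * (kk K p).sg * (kk K p).De) * (1 + c * ci) * i
  · linear_combination c * (ii A * (kk K p).a * (kk K p).s * (kk K p).Ni * (kk K p).sg) * i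
  · linear_combination -c * (ii A * (kk K p).a * (kk K p).sb * (kk K p).Ni * (kk K p).sg) * i
  · linear_combination ii A * (kk K p).a * (kk K p).s * (kk K p).zb * i
  · linear_combination -(ii A * (kk K p).a * (kk K p).sb * (kk K p).z) * i

theorem gO : gO (sK K c ci) (sP p c ci) = gO K p := by
  funext a b
  have c1 : ∀ a, c1 (sK K c ci) (sP p c ci) a = c1 K p a := fun _ => rfl
  have c3 : ∀ a, c3 (sK K c ci) (sP p c ci) a = c * c3 K p a := fun a => by
    show _ * (c * K.ri) * K.mu a + K.om a * (c * p.j1) * (_ * K.kc.s) = _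
    rw [P354XR.c3]; ring
  have c4 : ∀ a, c4 (sK K c ci) (sP p c ci) a = c * c4 K p a := fun a => by
    show _ * (c * K.ri) * K.mub a - K.om a * (c * p.j1) * (_ * K.kc.sb) = _
    rw [P354XR.c4]; ring
  have q : ∀ x y, (kk (sK K c ci) (sP p c ci)).qf (c * x) (c * y) = c * (kk K p).qf x y :=
    fun x y => by
    show _ * ((kk K p).s * _ - (kk K p).sb * _) = _
    rw [KC.qf]; ring
  have u : ∀ x y, ci * x * (c * y) = x * y := fun x y => by linear_combination x * y * h.inv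
  simp only [P354YK.gO, gBo, c1, c3, c4, q]
  show _ * (_ - _ * K.om b - K.om a * _ + ci * p.a * (K.om a * _ + _ * K.om b) +
    2 * (ci * K.z 1 * (ci * K.z 1) + ci * p.a * (ci * p.a) * K.kc.x * K.kc.x) * _ +
    ci * p.a * (ci * p.a) * _ * _ + 2 * (ci * p.M) * (ci * K.z 1) * (c * c * p.sg) *
      (_ - ci * p.a * _) * (_ - ci * p.a * _)) = _ * (_ - _ - _ + p.a * _ +
    2 * (K.z 1 * K.z 1 + p.a * p.a * K.kc.x * K.kc.x) * _ + p.a * p.a * _ * _ +
      2 * p.M * K.z 1 * p.sg * (_ - p.a * _) * (_ - p.a * _))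
  simp only [u]
  generalize (kk K p).qf (P354XR.c3 K p a) (P354XR.c4 K p a) = x
  generalize (kk K p).qf (P354XR.c3 K p b) (P354XR.c4 K p b) = y
  linear_combination (hf A * (p.a * (K.om a * y + x * K.om b) + (1 + c * ci) *
    (2 * (K.z 1 * K.z 1 + p.a * p.a * K.kc.x * K.kc.x) * (P354XR.c3 K p a * P354XR.c4 K p b +
      P354XR.c4 K p a * P354XR.c3 K p b) + p.a * p.a * x * y + 2 * p.M * K.z 1 * p.sg *
      (P354XR.c1 K p a - p.a * x) * (P354XR.c1 K p b - p.a * y)))) * h.inv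

variable {qd ex : A → A} {u k : A}

theorem f1 (e : K.Is) : f1 (sK K c ci) (sP p c ci) (sG S c) = f1 K p S := by
  have : pre (sK K c ci) (sP p c ci) = pre K p := by
    rw [pre, h.frO e, h.prj (D := K.d 0) fun _ => rfl]; rfl
  rw [P354F2.f1, this]; rfl

theorem fr2 (e : K.Is) (l : ∀ f, qd (c * f) = c * qd f) :
    fr2 (sK K c ci) (sP p c ci) (sG S c) (fun f => ci * qd f) ex u k = fr2 K p S qd ex u k := by
  have b : bK (sK K c ci) (sP p c ci) = bK K p := by
    rw [bK, h.kc.1]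
    show -(K.Ni * (_ * (ci * p.a) * K.kc.sb * _)) = _
    rw [bK]
    linear_combination -(K.Ni * (ii A * p.a * K.kc.sb * (kk K p).z)) * h.inv
  have f : fb (sK K c ci) (sP p c ci) (sG S c) u k = fb K p S u k := by
    rw [fb, h.f1 e, h.frO e, b]; rfl
  have w : ul (sK K c ci) (sP p c ci) = ul K p := by rw [ul, h.frO e]; rfl
  have m : ∀ f, ci * qd (c * f) = qd f := fun f => by
    rw [l]; linear_combination qd f * h.inv
  have o : so (sK K c ci) (sP p c ci) (sG S c) u k = c * so K p S u k := by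
    rw [so, f, w, so, om, om, ul, sG_nab0, sG_dot, dot_smul_left]
    exact mul_left_comm _ _ _
  have x : fe (sK K c ci) (sP p c ci) (sG S c) (fun f => ci * qd f) ex u k =
      fe K p S qd ex u k := by rw [fe, o, m, fe]
  have y : sq (sK K c ci) (sP p c ci) (sG S c) (fun f => ci * qd f) ex u k =
      c * sq K p S qd ex u k := by
    rw [sq, f, w, x, h.kc.2.2.2.2, sq, t0, t0, ul, sG_nab0, sG_dot, dot_smul_left]
    show K.Ni * (S.c _ * _ - _) = _
    ring
  rw [P354F2.fr2, f, x, y, m]; rfl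

theorem bs (b : Bs K p S) : Bs (sK K c ci) (sP p c ci) (sG S c) := by
  have r := h.prj (sK_R (K := K) (p := p) (ci := ci))
  refine ⟨h.hp b.is, h.pm b.pis, (congrArg (c * ·) b.j1).trans (mul_zero c), ?_,
    Cn.is (b.cHB.1 ▸ h) b.hS, r ▸ b.RR, ?_, fun i => ?_⟩
  · obtain ⟨g, Γ, rfl⟩ := b.geo
    exact ⟨g, _, (sK_geo g Γ).symm⟩
  · rw [r, h.prj (D := K.d 0) fun _ => rfl]; exact b.RT
  · have e : (sK K c ci).d i.succ.succ = K.d i.succ.succ := by fin_cases i <;> rfl
    rw [r, e, h.prj (D := ci • K.d i.succ.succ) fun f => by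
      show _ = c * (ci * K.d i.succ.succ f)
      rw [← mul_assoc, h.inv, one_mul], sK_R, sG_dot,
      show K.prj (ci • K.d i.succ.succ) = ci • K.prj (K.d i.succ.succ) from rfl, dot_smul_right,
      D_mul, b.RO, h.di]
    ring

theorem qdr (q : Qd K p qd ex) : Qd (sK K c ci) (sP p c ci) (fun f => ci * qd f) ex where
  R f := by rw [sK_R, D_mul, h.di, q.R]; linear_combination f * h.inv
  H f := (D_mul K.H _ _).trans (by rw [h.di, q.H, mul_zero, add_zero]; rfl)
  B f := (D_mul K.B _ _).trans (by rw [h.di, q.B, mul_zero, add_zero]; rfl)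
  c f := (map_mul K.c _ _).trans (by rw [h.ri, q.c]; rfl)
  lin z f := by rw [q.lin]; ring
  d i f := by fin_cases i <;> simp [sK, q.d, mul_left_comm]
  ce := q.ce
  neg := q.neg

end Cn

end Vale.Agent.P354F2
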